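import Vale.Agent.P128.Circle.Gap

/-!
# P128: the energy in a disc through the arcs, and the circle energy bound
-/

open MeasureTheory Set Metric Filter
open scoped ENNReal Topology Real

noncomputable section

namespace Vale.Agent.P128.Circle

open Classical in
/-- Abel summation. -/
theorem sum_mul_le (S : Finset ℕ) (c Φ : ℕ → ℝ) {B : ℝ} (h0 : ∑ j ∈ S, Φ j = 0)
    (hgap : ∀ p q : ℝ, p ∈ S.image c → q ∈ S.image c → p < q →
      (∀ v ∈ S.image c, v ≤ p ∨ q ≤ v) → (q - p) * ∑ j ∈ S.filter (fun j => q ≤ c j), Φ j ≤ B) :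
    ∑ j ∈ S, c j * Φ j ≤ ((S.image c).card - 1 : ℕ) * B := by
  induction hn : (S.image c).card using Nat.strong_induction_on generalizing c with
  | _ n ih =>
    rcases Nat.lt_or_ge n 2 with h1 | h2
    · have h0' : ∑ j ∈ S, c j * Φ j = 0 := by
        rcases S.eq_empty_or_nonempty with rfl | ⟨j0, hj0⟩
        · simp
        · have : ∀ j ∈ S, c j = c j0 := fun j hj =>
            Finset.card_le_one.1 (by omega : (S.image c).card ≤ 1) _
              (Finset.mem_image_of_mem c hj) _ (Finset.mem_image_of_mem c hj0)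
          rw [Finset.sum_congr rfl fun j hj => by rw [this j hj], ← Finset.mul_sum, h0, mul_zero]
      rw [h0', Nat.sub_eq_zero_of_le (by omega)]
      simp
    · have hne : (S.image c).Nonempty := Finset.card_pos.1 (by omega)
      set q := (S.image c).max' hne with hq
      have hqm : q ∈ S.image c := Finset.max'_mem _ hne
      have hne' : ((S.image c).erase q).Nonempty := by
        rw [← Finset.card_pos, Finset.card_erase_of_mem hqm]; omega
      set p := ((S.image c).erase q).max' hne' with hp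
      have hpm := Finset.max'_mem _ hne'
      rw [← hp, Finset.mem_erase] at hpm
      have hpq : p < q := lt_of_le_of_ne (Finset.le_max' _ _ hpm.2) hpm.1
      have hbet : ∀ v ∈ S.image c, v ≤ p ∨ q ≤ v := fun v hv => by
        by_cases hvq : v = q
        · exact Or.inr hvq.ge
        · exact Or.inl (Finset.le_max' _ _ (Finset.mem_erase.2 ⟨hvq, hv⟩))
      set c' := fun j => min (c j) p
      have himg : S.image c' ⊆ (S.image c).erase q := by
        intro v hv
        obtain ⟨j, hj, rfl⟩ := Finset.mem_image.1 hv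
        refine Finset.mem_erase.2
          ⟨(lt_of_le_of_lt (min_le_right _ _) hpq).ne, ?_⟩
        rcases min_choice (c j) p with e | e
        · simp only [c', e]; exact Finset.mem_image_of_mem c hj
        · simp only [c', e]; exact hpm.2
      have hlt : (S.image c').card < n :=
        lt_of_le_of_lt (Finset.card_le_card himg) (by
          rw [Finset.card_erase_of_mem hqm]; omega)
      have hgap' : ∀ p' q' : ℝ, p' ∈ S.image c' → q' ∈ S.image c' → p' < q' →
          (∀ v ∈ S.image c', v ≤ p' ∨ q' ≤ v) →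
            (q' - p') * ∑ j ∈ S.filter (fun j => q' ≤ c' j), Φ j ≤ B := by
        intro p' q' hp' hq' hlt' hbet'
        have hq'p : q' ≤ p := by
          obtain ⟨j, _, rfl⟩ := Finset.mem_image.1 hq'; exact min_le_right _ _
        have e : S.filter (fun j => q' ≤ c' j) = S.filter (fun j => q' ≤ c j) :=
          Finset.filter_congr fun j _ => by simp [c', hq'p]
        rw [e]
        refine hgap p' q' (Finset.mem_of_mem_erase (himg hp'))
          (Finset.mem_of_mem_erase (himg hq')) hlt' fun v hv => ?_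
        rcases hbet v hv with h' | h'
        · obtain ⟨j, hj, rfl⟩ := Finset.mem_image.1 hv
          exact hbet' (c j) (Finset.mem_image.2 ⟨j, hj, min_eq_left h'⟩)
        · exact Or.inr (by linarith)
      have hsplit : ∑ j ∈ S, c j * Φ j =
          ∑ j ∈ S, c' j * Φ j + (q - p) * ∑ j ∈ S.filter (fun j => q ≤ c j), Φ j := by
        rw [Finset.mul_sum, Finset.sum_filter, ← Finset.sum_add_distrib]
        refine Finset.sum_congr rfl fun j hj => ?_
        rcases hbet _ (Finset.mem_image_of_mem c hj) with h' | h'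
        · rw [if_neg (by linarith)]; simp only [c', min_eq_left h', add_zero]
        · rw [if_pos h']
          have : c j = q := le_antisymm (Finset.le_max' _ _ (Finset.mem_image_of_mem c hj)) h'
          simp only [c', this, min_eq_right hpq.le]; ring
      have hB := hgap p q hpm.2 hqm hpq hbet
      have hih := ih _ hlt c' hgap' rfl
      rw [hsplit]
      refine (add_le_add hih hB).trans (le_of_le_of_eq ?_ rfl)
      obtain ⟨k, rfl⟩ := Nat.exists_eq_add_of_le h2
      have hge : p ∈ S.image c' := by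
        obtain ⟨j, hj, hjp⟩ := Finset.mem_image.1 hpm.2
        exact Finset.mem_image.2 ⟨j, hj, by simp [c', hjp]⟩
      have hcard : (S.image c').card = k + 1 := by
        have heq : S.image c' = (S.image c).erase q := by
          refine le_antisymm himg fun v hv => ?_
          obtain ⟨hvq, hvm⟩ := Finset.mem_erase.1 hv
          obtain ⟨j, hj, rfl⟩ := Finset.mem_image.1 hvm
          exact Finset.mem_image.2
            ⟨j, hj, min_eq_left ((hbet _ hvm).resolve_right fun h' => hvq
              (le_antisymm (Finset.le_max' _ _ hvm) h'))⟩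
        rw [heq, Finset.card_erase_of_mem hqm]; omega
      rw [hcard, show 2 + k - 1 = k + 1 by omega]
      rw [show k + 1 - 1 = k by omega]
      push_cast
      linarith

variable {K : Set ℂ} {u V : ℂ → ℝ} {x : ℂ} {r : ℝ} {t : ℕ → ℝ} {m : ℕ} {U : ℕ → Set ℂ}

theorem mem_arcsOf {i j : ℕ} : j ∈ arcsOf U m i ↔ j < m ∧ U j = U i := by
  simp [arcsOf]

/-- The energy of one component through its arcs. -/
theorem comp_energy (h : IsGM K u) (hg : GoodRadius K u x r) (ht : IsPartition K x r t m)
    (hU : ArcComps K x r t m U) (hI : FluxIdentity u x r t m U) {i : ℕ} (hi : i < m) :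
    ∫ z in U i, gradSq u z = ∑ j ∈ arcsOf U m i, ∫ θ in (t j)..(t (j + 1)),
      u (circleMap x r θ) * (r * dR u x r θ) := by
  have hUo := hU.isOpen i hi
  have hUs := hU.subset i hi
  obtain ⟨B, hB⟩ : ∃ B : ℝ, ∀ j < m, ∀ θ ∈ Ioo (t j) (t (j + 1)),
      |u (circleMap x r θ)| ≤ B := by
    refine ⟨∑ j ∈ Finset.range m,
      (|arcMean u x r (t j) (t (j + 1))| + Real.sqrt (2 * π * r * tauC u x r)),
      fun j hj θ hθ => ?_⟩
    refine le_trans ?_ (Finset.single_le_sum
      (fun k _ => add_nonneg (abs_nonneg _) (Real.sqrt_nonneg _)) (Finset.mem_range.2 hj))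
    have h1 := abs_u_sub_mean h hg (ht.2.2 j hj).1 hθ
    have h2 := abs_sub_abs_le_abs_sub (u (circleMap x r θ)) (arcMean u x r (t j) (t (j + 1)))
    linarith
  have key : ∀ n : ℕ, B ≤ n →
      ∫ z in U i, trap (-(n + 1 : ℝ)) (n + 1) 1 (u z) * gradSq u z =
        ∑ j ∈ arcsOf U m i, ∫ θ in (t j)..(t (j + 1)),
          u (circleMap x r θ) * (r * dR u x r θ) := by
    intro n hn
    have hn0 : (0 : ℝ) ≤ n := n.cast_nonneg
    have h1 := hI i hi (trapInt (-(n + 1 : ℝ)) (n + 1) 1 0) (contDiff_trapInt _ _ _ _)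
      ⟨max ((n + 1 : ℝ) - -(n + 1)) 1, fun s =>
        ⟨(abs_trapInt_le one_pos (by linarith) _ s).trans (le_max_left _ _), by
          rw [deriv_trapInt]; exact (abs_trap_le _ _ _ s).trans (le_max_right _ _)⟩⟩
    rw [deriv_trapInt] at h1
    rw [h1]
    refine Finset.sum_congr rfl fun j hj => intervalIntegral.integral_congr_ae ?_
    have hj' := (mem_arcsOf.1 hj).1
    have hne : ∀ᵐ θ : ℝ, θ ≠ t (j + 1) := by simp [ae_iff]
    filter_upwards [hne] with θ hb hθ
    rw [uIoc_of_le (ht.2.2 j hj').1.1.le] at hθ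
    have hv := abs_le.1 ((hB j hj' θ ⟨hθ.1, lt_of_le_of_ne hθ.2 hb⟩).trans hn)
    rw [trapInt_eq_self one_pos (mem_Icc.2 ⟨by linarith, by linarith⟩)
      (mem_Icc.2 ⟨by linarith [hv.1], by linarith [hv.2]⟩)]
  have hgi : IntegrableOn (gradSq u) (U i) := (integrableOn_gradSq h x r).mono_set hUs
  have lim : Tendsto (fun n : ℕ => ∫ z in U i,
      trap (-(n + 1 : ℝ)) (n + 1) 1 (u z) * gradSq u z) atTop
        (𝓝 (∫ z in U i, gradSq u z)) := by
    refine tendsto_integral_of_dominated_convergence (gradSq u)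
      (fun n => (integrableOn_comp h hUo.measurableSet hUs (continuous_trap _ _ _)
        (abs_trap_le _ _ _)).1) hgi (fun n => Eventually.of_forall fun z => ?_)
      (Eventually.of_forall fun z => ?_)
    · rw [Real.norm_eq_abs, abs_mul, abs_of_nonneg (gradSq_nonneg u z)]
      exact mul_le_of_le_one_left (gradSq_nonneg u z) (abs_trap_le _ _ _ _)
    · refine tendsto_atTop_of_eventually_const (i₀ := ⌈|u z|⌉₊) fun n hn => ?_
      have := (Nat.le_ceil _).trans (Nat.cast_le (α := ℝ).2 hn)
      rw [trap_eq_one one_pos (by linarith [neg_abs_le (u z)]) (by linarith [le_abs_self (u z)]),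
        one_mul]
  exact tendsto_nhds_unique lim
    (tendsto_atTop_of_eventually_const (i₀ := ⌈B⌉₊) fun n hn =>
      key n ((Nat.le_ceil _).trans (Nat.cast_le.2 hn)))

/-- Summing over the components. -/
theorem sum_comps (f : ℕ → ℝ) :
    ∑ W ∈ (Finset.range m).image U, ∑ j ∈ (Finset.range m).filter (fun j => U j = W), f j =
      ∑ j ∈ Finset.range m, f j := by
  classical
  exact Finset.sum_fiberwise_of_maps_to (fun j hj => Finset.mem_image_of_mem U hj) f

/-- `D(x, r)` as a sum over the arcs. -/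
theorem dir_eq_sum (h : IsGM K u) (hg : GoodRadius K u x r) (ht : IsPartition K x r t m)
    (hU : ArcComps K x r t m U) (hI : FluxIdentity u x r t m U) (hC : Covers K u x r m U) :
    dir K u x r = ∑ j ∈ Finset.range m, ∫ θ in (t j)..(t (j + 1)),
      u (circleMap x r θ) * (r * dR u x r θ) := by
  classical
  set S := (Finset.range m).image U
  have hS : (⋃ W ∈ S, id W) ⊆ ball x r \ K := by
    intro z hz
    obtain ⟨W, hW, hzW⟩ := mem_iUnion₂.1 hz
    obtain ⟨i, hi, rfl⟩ := Finset.mem_image.1 hW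
    exact hU.subset i (Finset.mem_range.1 hi) hzW
  rw [dir_eq_integral h x r, setIntegral_eq_of_subset_of_forall_sdiff_eq_zero
    (measurableSet_ball.diff h.isClosed.measurableSet) hS fun z hz => hC z hz.1 fun i hi hzi =>
      hz.2 (mem_iUnion₂.2 ⟨U i, Finset.mem_image_of_mem U (Finset.mem_range.2 hi), hzi⟩),
    integral_biUnion_finset]
  · refine Eq.trans ?_ (sum_comps (U := U) (m := m) _)
    refine Finset.sum_congr (by congr!) fun W hW => ?_
    obtain ⟨i, hi, rfl⟩ := Finset.mem_image.1 hW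
    rw [id, comp_energy h hg ht hU hI (Finset.mem_range.1 hi)]
    refine Finset.sum_congr ?_ fun _ _ => rfl
    ext j; simp [mem_arcsOf]
  · intro W hW
    obtain ⟨i, hi, rfl⟩ := Finset.mem_image.1 hW
    exact (hU.isOpen i (Finset.mem_range.1 hi)).measurableSet
  · intro W₁ h₁ W₂ h₂ hne
    obtain ⟨i, hi, rfl⟩ := Finset.mem_image.1 h₁
    obtain ⟨j, hj, rfl⟩ := Finset.mem_image.1 h₂
    exact (hU.disjoint i (Finset.mem_range.1 hi) j (Finset.mem_range.1 hj)).resolve_left hne
  · intro W hW
    obtain ⟨i, hi, rfl⟩ := Finset.mem_image.1 hW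
    exact (integrableOn_gradSq h x r).mono_set (hU.subset i (Finset.mem_range.1 hi))

theorem sum_flux_eq_zero (hI : FluxIdentity u x r t m U) {i : ℕ} (hi : i < m) :
    ∑ j ∈ arcsOf U m i, arcFlux u x r (t j) (t (j + 1)) = 0 := by
  have h1 := hI i hi (fun _ => 1) contDiff_const ⟨1, fun s => by simp⟩
  simpa [arcFlux] using h1.symm

/-- `x F ≤ c (r² F²)^(1/3)` from `F x³ ≤ c³ r²`. -/
theorem mul_le_rpow {w F c r N M : ℝ} (hw : 0 ≤ w) (hF : 0 ≤ F) (hc : 0 ≤ c) (hr : 0 ≤ r)
    (hN : 1 ≤ N) (hM : 0 ≤ M) (hFM : F ≤ N * M) (h : F * w ^ 3 ≤ c ^ 3 * r ^ 2) :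
    w * F ≤ c * N * (M ^ ((2 : ℝ) / 3) * r ^ ((2 : ℝ) / 3)) := by
  have cube : ∀ y : ℝ, 0 ≤ y → (y ^ ((2 : ℝ) / 3)) ^ 3 = y ^ 2 := fun y hy => by
    rw [← Real.rpow_natCast, ← Real.rpow_mul hy]
    norm_num
  refine le_of_pow_le_pow_left₀ (show 3 ≠ 0 by norm_num) (by positivity) ?_
  rw [mul_pow w F, mul_pow _ (M ^ _ * r ^ _), mul_pow c N, mul_pow (M ^ _), cube M hM, cube r hr]
  calc w ^ 3 * F ^ 3 = (F * w ^ 3) * F ^ 2 := by ring
    _ ≤ (c ^ 3 * r ^ 2) * (N * M) ^ 2 :=
        mul_le_mul h (pow_le_pow_left₀ hF hFM 2) (sq_nonneg _) (by positivity)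
    _ = c ^ 3 * N ^ 2 * (M ^ 2 * r ^ 2) := by ring
    _ ≤ c ^ 3 * N ^ 3 * (M ^ 2 * r ^ 2) := by
        gcongr
        norm_num

/-- The energy bound on a good circle for every pair with the component decomposition. -/
theorem energyBound_core (hCo : CoareaSpec) (hW : WirtingerSpec) :
    ∃ C : ℝ, 0 ≤ C ∧ ∀ K u V, IsGM K u → CutFor K u → CompFor K u → IsStream K u V →
      ∀ (x : ℂ) (r M : ℝ), GoodRadius K u x r → 0 ≤ M →
        (∀ p ∈ K, ∀ q ∈ K, |V p - V q| ≤ M) →
        ∀ t m, IsPartition K x r t m →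
          dir K u x r ≤ r * arcSum u x r t m +
            C * (m : ℝ) ^ 2 * (M * Real.sqrt (r * tauC u x r) +
              M ^ ((2 : ℝ) / 3) * r ^ ((2 : ℝ) / 3)) := by
  obtain ⟨C₀, hC₀, hco⟩ := hCo
  set c := (82944 * π * (C₀ + 1) ^ 2) ^ ((1 : ℝ) / 3) with hc
  have hc0 : 0 ≤ c := by positivity
  have hc3 : c ^ 3 = 82944 * π * (C₀ + 1) ^ 2 := by
    rw [hc, ← Real.rpow_natCast, ← Real.rpow_mul (by positivity)]
    norm_num
  refine ⟨2 * Real.sqrt (2 * π) + c, by positivity, ?_⟩
  intro K u V hgm hCut hComp hV x r M hg hM0 hM t m ht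
  classical
  have hr := hg.pos
  obtain ⟨U, hU, hI, hCv⟩ := hComp x r hg t m ht
  set τ := tauC u x r with hτ
  have hτ0 : 0 ≤ τ := by
    have := tauArc_nonneg (u := u) (x := x) hr.le (show (0 : ℝ) ≤ 2 * π by positivity)
    exact this
  set o := Real.sqrt (2 * π * r * τ) with ho
  have ho0 : 0 ≤ o := Real.sqrt_nonneg _
  set P := M * Real.sqrt (r * τ) + M ^ ((2 : ℝ) / 3) * r ^ ((2 : ℝ) / 3) with hP
  set B := (2 * Real.sqrt (2 * π) + c) * m * P with hBdef
  have hm1 : (1 : ℝ) ≤ m := by exact_mod_cast ht.1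
  have hB0 : 0 ≤ B := by positivity
  set μ := fun j => arcMean u x r (t j) (t (j + 1))
  set Φ := fun j => arcFlux u x r (t j) (t (j + 1))
  -- one component
  have hcomp : ∀ i < m, ∑ j ∈ arcsOf U m i, μ j * Φ j ≤ (arcsOf U m i).card * B := by
    intro i hi
    refine (sum_mul_le _ μ Φ (B := B) (sum_flux_eq_zero hI hi) ?_).trans
      (mul_le_mul_of_nonneg_right (Nat.cast_le.2 ((Nat.sub_le _ 1).trans
        Finset.card_image_le)) hB0)
    intro p q _ _ hpq hbet
    set Up := (arcsOf U m i).filter (fun j => q ≤ μ j) with hUp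
    set F := ∑ j ∈ Up, Φ j with hF
    rcases le_or_gt F 0 with hF0 | hF0
    · exact (mul_nonpos_of_nonneg_of_nonpos (by linarith) hF0).trans hB0
    have hFm : F ≤ m * M := by
      calc F ≤ Up.card • M := Finset.sum_le_card_nsmul _ _ _ fun j hj =>
            (le_abs_self _).trans (abs_arcFlux_le hg hV ht
              (mem_arcsOf.1 (Finset.mem_filter.1 hj).1).1 hM)
        _ ≤ m * M := by
            rw [nsmul_eq_mul]
            refine mul_le_mul_of_nonneg_right (Nat.cast_le.2 ?_) hM0
            refine (Finset.card_le_card (Finset.filter_subset _ _)).trans ?_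
            refine (Finset.card_filter_le _ _).trans (Finset.card_range m).le
    have hoF : 2 * o * F ≤ 2 * Real.sqrt (2 * π) * m * (M * Real.sqrt (r * τ)) := by
      have : o = Real.sqrt (2 * π) * Real.sqrt (r * τ) := by
        rw [ho, mul_assoc (2 * π), Real.sqrt_mul (by positivity)]
      calc 2 * o * F ≤ 2 * o * (m * M) := mul_le_mul_of_nonneg_left hFm (by positivity)
        _ = _ := by rw [this]; ring
    have hrest : (q - p - 2 * o) * F ≤ c * m * (M ^ ((2 : ℝ) / 3) * r ^ ((2 : ℝ) / 3)) := by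
      rcases le_or_gt (q - p - 2 * o) 0 with hw | hw
      · exact (mul_nonpos_of_nonpos_of_nonneg hw hF0.le).trans (by positivity)
      refine mul_le_rpow hw.le hF0.le hc0 hr.le hm1 hM0 hFm ?_
      rw [hc3]
      have := gap_bound hCut hC₀ hco hgm hg ht hU hI hi (a := p + o) (b := q - o) (by linarith)
        (fun j => q ≤ μ j) (fun j hj θ hθ => ?_) F (by rw [hF, hUp]) hF0
      · rwa [show q - o - (p + o) = q - p - 2 * o by ring] at this
      · have hd := abs_le.1 (abs_u_sub_mean hgm hg (ht.2.2 j (mem_arcsOf.1 hj).1).1 hθ)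
        refine ⟨fun hq => by linarith [hd.1], fun hq => ?_⟩
        have := (hbet (μ j) (Finset.mem_image_of_mem μ hj)).resolve_right hq
        linarith [hd.2]
    have e : (q - p) * F = 2 * o * F + (q - p - 2 * o) * F := by ring
    rw [e]
    refine (add_le_add hoF hrest).trans ?_
    rw [hBdef, hP]
    have h1 : 0 ≤ M * Real.sqrt (r * τ) := by positivity
    have h2 : 0 ≤ M ^ ((2 : ℝ) / 3) * r ^ ((2 : ℝ) / 3) := by positivity
    nlinarith [mul_nonneg (mul_nonneg hc0 (Nat.cast_nonneg m)) h1,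
      mul_nonneg (mul_nonneg (Real.sqrt_nonneg (2 * π)) (Nat.cast_nonneg m)) h2]
  -- all components
  have hsum : ∑ j ∈ Finset.range m, μ j * Φ j ≤ m * B := by
    rw [← sum_comps (U := U) (m := m) fun j => μ j * Φ j]
    calc ∑ W ∈ (Finset.range m).image U,
          ∑ j ∈ (Finset.range m).filter (fun j => U j = W), μ j * Φ j
        ≤ ∑ W ∈ (Finset.range m).image U,
            (((Finset.range m).filter (fun j => U j = W)).card : ℝ) * B :=
          Finset.sum_le_sum fun W hW => by
            obtain ⟨i, hi, rfl⟩ := Finset.mem_image.1 hW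
            exact hcomp i (Finset.mem_range.1 hi)
      _ = m * B := by
          rw [← Finset.sum_mul, ← Nat.cast_sum, ← Finset.card_eq_sum_card_fiberwise
            (fun j hj => Finset.mem_image_of_mem U hj), Finset.card_range]
  rw [dir_eq_sum hgm hg ht hU hI hCv]
  calc ∑ j ∈ Finset.range m, ∫ θ in (t j)..(t (j + 1)), u (circleMap x r θ) * (r * dR u x r θ)
      ≤ ∑ j ∈ Finset.range m, (r * ((t (j + 1) - t j) / π *
          Real.sqrt (tauArc u x r (t j) (t (j + 1)) * rhoArc u x r (t j) (t (j + 1)))) +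
            μ j * Φ j) :=
        Finset.sum_le_sum fun j hj =>
          integral_arc_le hW hgm hg (ht.2.2 j (Finset.mem_range.1 hj)).1
    _ = r * arcSum u x r t m + ∑ j ∈ Finset.range m, μ j * Φ j := by
        rw [Finset.sum_add_distrib, arcSum, Finset.mul_sum]
    _ ≤ r * arcSum u x r t m + m * B := add_le_add_right hsum _
    _ = _ := by rw [hBdef, hP]; ring

/-- The energy bound in the open case. -/
theorem energyBound_of_comps (hComp : CompIdentitySpec) (hCut : CutSpec) (hCo : CoareaSpec)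
    (hW : WirtingerSpec) : EnergyBoundSpec := by
  obtain ⟨C, hC, h⟩ := energyBound_core hCo hW
  exact ⟨C, hC, fun K u V ho => h K u V ho (hCut K u ho) (hComp K u ho)⟩

/-- The energy bound, general case. -/
theorem genEnergyBound (hComp : GenCompIdentitySpec) (hCut : GenCutSpec) (hCo : CoareaSpec)
    (hW : WirtingerSpec) :
    ∃ C : ℝ, 0 ≤ C ∧ ∀ K u V, IsGM K u → IsStream K u V →
      ∀ (x : ℂ) (r M : ℝ), GoodRadius K u x r → 0 ≤ M →
        (∀ p ∈ K, ∀ q ∈ K, |V p - V q| ≤ M) →
        ∀ t m, IsPartition K x r t m →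
          dir K u x r ≤ r * arcSum u x r t m +
            C * (m : ℝ) ^ 2 * (M * Real.sqrt (r * tauC u x r) +
              M ^ ((2 : ℝ) / 3) * r ^ ((2 : ℝ) / 3)) := by
  obtain ⟨C, hC, h⟩ := energyBound_core hCo hW
  exact ⟨C, hC, fun K u V hg => h K u V hg (hCut K u hg) (hComp K u hg)⟩

end Vale.Agent.P128.Circle
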