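import Vale.Agent.P128.Spec

/-!
# P128: interface between the two halves of the circle calculus

`U i` is the component of `ball x r \ K` on the inner side of the arc `i`. The remaining components
(bounded components of `Kᶜ`) carry no energy.
-/

open MeasureTheory Set Metric Filter
open scoped ENNReal Topology Real

noncomputable section

namespace Vale.Agent.P128.Circle

/-- `U` lists, arc by arc, the components of `ball x r \ K`. -/
structure ArcComps (K : Set ℂ) (x : ℂ) (r : ℝ) (t : ℕ → ℝ) (m : ℕ) (U : ℕ → Set ℂ) : Prop where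
  isOpen : ∀ i < m, IsOpen (U i)
  subset : ∀ i < m, U i ⊆ ball x r \ K
  relClosed : ∀ i < m, closure (U i) ∩ ball x r ⊆ U i ∪ K
  inner : ∀ i < m, ∀ θ ∈ Ioo (t i) (t (i + 1)), U i ∈ 𝓝[ball x r] circleMap x r θ
  disjoint : ∀ i < m, ∀ j < m, U i = U j ∨ Disjoint (U i) (U j)

/-- Outside the components seen from the arcs, `u` is flat. -/
def Covers (K : Set ℂ) (u : ℂ → ℝ) (x : ℂ) (r : ℝ) (m : ℕ) (U : ℕ → Set ℂ) : Prop :=
  ∀ z ∈ ball x r \ K, (∀ i < m, z ∉ U i) → gradSq u z = 0

/-- Euler-Lagrange equation of one pair; test functions may jump on `K`. -/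
def TestFor (K : Set ℂ) (u : ℂ → ℝ) : Prop :=
  ∀ φ : ℂ → ℝ, LocallyLipschitzOn Kᶜ φ → HasCompactSupport φ → dirichlet K φ univ < ⊤ →
    IntegrableOn (gradInner u φ) Kᶜ ∧ ∫ z in Kᶜ, gradInner u φ z = 0

/-- Cutting bound of one pair. -/
def CutFor (K : Set ℂ) (u : ℂ → ℝ) : Prop :=
  ∀ A : Set ℂ, IsOpen A → Bornology.IsBounded A → energy K u A ≤ μH[1] (frontier A \ K)

/-- Euler-Lagrange equation, general case. -/
abbrev GenTestSpec : Prop := TestSpec

/-- Cutting bound, general case. -/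
abbrev GenCutSpec : Prop := CutSpec

open Classical in
/-- The arcs seen from the component `U i`. -/
def arcsOf (U : ℕ → Set ℂ) (m i : ℕ) : Finset ℕ :=
  (Finset.range m).filter fun j => U j = U i

/-- Flux identity: for bounded `C¹` functions `g` with bounded derivative,
`∫_U g'(u) |∇u|² = Σ ∫ g(u) u_r ds` over the arcs of `U`. -/
def FluxIdentity (u : ℂ → ℝ) (x : ℂ) (r : ℝ) (t : ℕ → ℝ) (m : ℕ) (U : ℕ → Set ℂ) : Prop :=
  ∀ i < m, ∀ g : ℝ → ℝ, ContDiff ℝ 1 g → (∃ B : ℝ, ∀ s, |g s| ≤ B ∧ |deriv g s| ≤ B) →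
    ∫ z in U i, deriv g (u z) * gradSq u z =
      ∑ j ∈ arcsOf U m i, ∫ θ in (t j)..(t (j + 1)),
        g (u (circleMap x r θ)) * (r * dR u x r θ)

/-- The component decomposition of one pair at all good radii. -/
def CompFor (K : Set ℂ) (u : ℂ → ℝ) : Prop :=
  ∀ (x : ℂ) (r : ℝ), GoodRadius K u x r → ∀ t m, IsPartition K x r t m →
    ∃ U : ℕ → Set ℂ, ArcComps K x r t m U ∧ FluxIdentity u x r t m U ∧ Covers K u x r m U

/-- The component decomposition at a good radius (piece I1). -/
def CompIdentitySpec : Prop := ∀ K u, IsGM K u → CompFor K u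

/-- The component decomposition, general case. -/
abbrev GenCompIdentitySpec : Prop := CompIdentitySpec

end Vale.Agent.P128.Circle
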