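import Vale.Agent.P128.Basic
import Vale.Agent.P128.Circle.Interface

/-!
# P128, seat I: the components of `ball x r \ K` seen from the arcs
-/

open MeasureTheory Set Metric Filter
open scoped ENNReal Topology Real

noncomputable section

namespace Vale.Agent.P128.Circle.Shells

open Vale.Agent.P128

variable {K : Set ℂ} {u : ℂ → ℝ} {x : ℂ} {r : ℝ} {t : ℕ → ℝ} {m : ℕ}

/-- An angle between `t 0` and `t m` lies in some interval of the partition. -/
theorem exists_index {θ : ℝ} (h0 : t 0 ≤ θ) (hm : θ < t m) :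
    ∃ j < m, t j ≤ θ ∧ θ < t (j + 1) := by
  classical
  have hex : ∃ i, θ < t i := ⟨m, hm⟩
  have hspec := Nat.find_spec hex
  have hle : Nat.find hex ≤ m := Nat.find_le hm
  cases hj : Nat.find hex with
  | zero => rw [hj] at hspec; linarith
  | succ i =>
    rw [hj] at hspec
    exact ⟨i, by omega, not_lt.1 (Nat.find_min hex (by omega)), hspec⟩

/-- Every point of the circle is in `K` or on one of the open arcs. -/
theorem sphere_cases (hr : 0 < r) (ht : IsPartition K x r t m) {p : ℂ} (hp : p ∈ sphere x r) :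
    p ∈ K ∨ ∃ j < m, ∃ θ ∈ Ioo (t j) (t (j + 1)), circleMap x r θ = p := by
  rw [← abs_of_pos hr, ← range_circleMap] at hp
  obtain ⟨θ₀, rfl⟩ := hp
  obtain ⟨θ, hθ, he⟩ := (periodic_circleMap x r).exists_mem_Ico Real.two_pi_pos θ₀ (t 0)
  rw [he]
  rw [← ht.2.1] at hθ
  obtain ⟨j, hj, h1, h2⟩ := exists_index hθ.1 hθ.2
  rcases eq_or_lt_of_le h1 with h | h
  · left; rw [← h]; exact (ht.2.2 j hj).2
  · right; exact ⟨j, hj, θ, ⟨h, h2⟩, rfl⟩

theorem nhdsWithin_ball_neBot (hr : 0 < r) (θ : ℝ) :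
    (𝓝[ball x r] circleMap x r θ).NeBot := by
  rw [← mem_closure_iff_nhdsWithin_neBot, closure_ball x hr.ne']
  exact circleMap_mem_closedBall x hr.le θ

/-- A connected component of `ball x r \ K`. -/
def IsComp (K : Set ℂ) (x : ℂ) (r : ℝ) (C : Set ℂ) : Prop :=
  ∃ q ∈ ball x r \ K, C = connectedComponentIn (ball x r \ K) q

theorem IsComp.isOpen {C : Set ℂ} (hK : IsClosed K) (hC : IsComp K x r C) : IsOpen C := by
  obtain ⟨q, -, rfl⟩ := hC
  exact (isOpen_ball.sdiff hK).connectedComponentIn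

theorem IsComp.subset {C : Set ℂ} (hC : IsComp K x r C) : C ⊆ ball x r \ K := by
  obtain ⟨q, -, rfl⟩ := hC
  exact connectedComponentIn_subset _ _

theorem IsComp.eq_of_mem {C : Set ℂ} (hC : IsComp K x r C) {z : ℂ} (hz : z ∈ C) :
    C = connectedComponentIn (ball x r \ K) z := by
  obtain ⟨q, -, rfl⟩ := hC
  exact connectedComponentIn_eq hz

theorem IsComp.eq_or_disjoint {C D : Set ℂ} (hC : IsComp K x r C) (hD : IsComp K x r D) :
    C = D ∨ Disjoint C D := by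
  rcases (C ∩ D).eq_empty_or_nonempty with h | ⟨z, hz⟩
  · exact Or.inr (disjoint_iff_inter_eq_empty.2 h)
  · exact Or.inl ((hC.eq_of_mem hz.1).trans (hD.eq_of_mem hz.2).symm)

theorem IsComp.relClosed {C : Set ℂ} (hK : IsClosed K) (hC : IsComp K x r C) :
    closure C ∩ ball x r ⊆ C ∪ K := by
  rintro p ⟨hp, hpb⟩
  by_cases hpK : p ∈ K
  · exact Or.inr hpK
  left
  have hpS : p ∈ ball x r \ K := ⟨hpb, hpK⟩
  set D := connectedComponentIn (ball x r \ K) p with hDdef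
  have hD : IsComp K x r D := ⟨p, hpS, rfl⟩
  have hpD : p ∈ D := mem_connectedComponentIn hpS
  obtain ⟨z, hzD, hzC⟩ := mem_closure_iff.1 hp D (hD.isOpen hK) hpD
  rw [(hC.eq_of_mem hzC).trans (hD.eq_of_mem hzD).symm]
  exact hpD

/-- Near a point of the circle off `K`, the disc meets one component only. -/
theorem exists_comp (hK : IsClosed K) (hr : 0 < r) {θ : ℝ} (hθ : circleMap x r θ ∉ K) :
    ∃ C, IsComp K x r C ∧ ∀ᶠ θ' in 𝓝 θ, C ∈ 𝓝[ball x r] circleMap x r θ' := by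
  obtain ⟨ε, hε, hball⟩ := Metric.isOpen_iff.1 hK.isOpen_compl _ hθ
  have hne := nhdsWithin_ball_neBot (x := x) hr θ
  obtain ⟨q, hq⟩ :=
    hne.nonempty_of_mem (inter_mem (mem_nhdsWithin_of_mem_nhds (ball_mem_nhds _ hε))
      self_mem_nhdsWithin)
  have hsub : ball (circleMap x r θ) ε ∩ ball x r ⊆ ball x r \ K := fun z hz =>
    ⟨hz.2, hball hz.1⟩
  have hconn : IsPreconnected (ball (circleMap x r θ) ε ∩ ball x r) :=
    ((convex_ball _ _).inter (convex_ball _ _)).isPreconnected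
  refine ⟨connectedComponentIn (ball x r \ K) q, ⟨q, hsub hq, rfl⟩, ?_⟩
  filter_upwards [(continuous_circleMap x r).continuousAt.preimage_mem_nhds
    (ball_mem_nhds (circleMap x r θ) hε)] with θ' hθ'
  exact mem_of_superset
    (inter_mem (mem_nhdsWithin_of_mem_nhds (isOpen_ball.mem_nhds hθ')) self_mem_nhdsWithin)
    (hconn.subset_connectedComponentIn hq hsub)

theorem IsComp.eq_of_nhds {C D : Set ℂ} (hr : 0 < r) (hC : IsComp K x r C)
    (hD : IsComp K x r D) {θ : ℝ} (h1 : C ∈ 𝓝[ball x r] circleMap x r θ)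
    (h2 : D ∈ 𝓝[ball x r] circleMap x r θ) : C = D := by
  obtain ⟨z, hz⟩ := (nhdsWithin_ball_neBot (x := x) hr θ).nonempty_of_mem (inter_mem h1 h2)
  exact (hC.eq_of_mem hz.1).trans (hD.eq_of_mem hz.2).symm

/-- One component is seen along a whole free arc. -/
theorem exists_comp_arc (hK : IsClosed K) (hr : 0 < r) {a b : ℝ} (hab : a < b)
    (hfree : ∀ θ ∈ Ioo a b, circleMap x r θ ∉ K) :
    ∃ C, IsComp K x r C ∧ ∀ θ ∈ Ioo a b, C ∈ 𝓝[ball x r] circleMap x r θ := by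
  have hmid : (a + b) / 2 ∈ Ioo a b := ⟨by linarith, by linarith⟩
  obtain ⟨C, hC, hCnear⟩ := exists_comp hK hr (hfree _ hmid)
  refine ⟨C, hC, fun θ hθ => ?_⟩
  set A : Set ℝ := {θ | θ ∈ Ioo a b ∧ C ∈ 𝓝[ball x r] circleMap x r θ}
  set B : Set ℝ := {θ | θ ∈ Ioo a b ∧ C ∉ 𝓝[ball x r] circleMap x r θ}
  have hA : IsOpen A := by
    rw [isOpen_iff_mem_nhds]
    rintro s ⟨hs, hsC⟩
    obtain ⟨D, hD, hDnear⟩ := exists_comp hK hr (hfree _ hs)
    obtain rfl := hC.eq_of_nhds hr hD hsC hDnear.self_of_nhds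
    filter_upwards [hDnear, isOpen_Ioo.mem_nhds hs] with s' h1 h2 using ⟨h2, h1⟩
  have hB : IsOpen B := by
    rw [isOpen_iff_mem_nhds]
    rintro s ⟨hs, hsC⟩
    obtain ⟨D, hD, hDnear⟩ := exists_comp hK hr (hfree _ hs)
    filter_upwards [hDnear, isOpen_Ioo.mem_nhds hs] with s' h1 h2
    refine ⟨h2, fun h3 => hsC ?_⟩
    rw [hC.eq_of_nhds hr hD h3 h1]
    exact hDnear.self_of_nhds
  have hdis : Disjoint A B := disjoint_left.2 fun s h1 h2 => h2.2 h1.2
  have hun : Ioo a b ⊆ A ∪ B := fun s hs =>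
    (em (C ∈ 𝓝[ball x r] circleMap x r s)).elim (fun h => Or.inl ⟨hs, h⟩) fun h => Or.inr ⟨hs, h⟩
  exact (isPreconnected_Ioo.subset_left_of_subset_union hA hB hdis hun
    ⟨_, hmid, hmid, hCnear.self_of_nhds⟩ hθ).2

/-- The component decomposition; what is left is relatively closed in `Kᶜ`. -/
theorem exists_arcComps (hK : IsClosed K) (hr : 0 < r) (ht : IsPartition K x r t m) :
    ∃ U : ℕ → Set ℂ, ArcComps K x r t m U ∧ ∀ z ∈ ball x r \ K, (∀ i < m, z ∉ U i) →
      ∃ C, IsOpen C ∧ z ∈ C ∧ C ⊆ ball x r \ K ∧ closure C ∩ Kᶜ ⊆ C := by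
  classical
  have hex : ∀ i, ∃ C, i < m → IsComp K x r C ∧
      ∀ θ ∈ Ioo (t i) (t (i + 1)), C ∈ 𝓝[ball x r] circleMap x r θ := by
    intro i
    by_cases hi : i < m
    · obtain ⟨C, hC⟩ := exists_comp_arc hK hr (ht.2.2 i hi).1.1 (ht.2.2 i hi).1.2.2
      exact ⟨C, fun _ => hC⟩
    · exact ⟨∅, fun h => absurd h hi⟩
  choose U hU using hex
  refine ⟨U, ⟨fun i hi => (hU i hi).1.isOpen hK, fun i hi => (hU i hi).1.subset,
    fun i hi => (hU i hi).1.relClosed hK, fun i hi => (hU i hi).2,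
    fun i hi j hj => (hU i hi).1.eq_or_disjoint (hU j hj).1⟩, fun z hz hcon => ?_⟩
  set C := connectedComponentIn (ball x r \ K) z with hCdef
  have hC : IsComp K x r C := ⟨z, hz, rfl⟩
  have hzC : z ∈ C := mem_connectedComponentIn hz
  refine ⟨C, hC.isOpen hK, hzC, hC.subset, ?_⟩
  rintro p ⟨hp, hpK⟩
  have hpb : p ∈ closedBall x r :=
    (closure_mono (hC.subset.trans sdiff_subset)).trans closure_ball_subset_closedBall hp
  rcases lt_or_eq_of_le (mem_closedBall.1 hpb) with hlt | heq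
  · exact (hC.relClosed hK ⟨hp, hlt⟩).resolve_right hpK
  · exfalso
    obtain ⟨j, hj, θ, hθ, rfl⟩ :=
      (sphere_cases hr ht (mem_sphere.2 heq)).resolve_left hpK
    rcases hC.eq_or_disjoint (hU j hj).1 with he | hd
    · exact hcon j hj (he ▸ hzC)
    · obtain ⟨W, hW, hWsub⟩ := mem_nhdsWithin_iff_exists_mem_nhds_inter.1 ((hU j hj).2 θ hθ)
      obtain ⟨w, hwW, hwC⟩ := mem_closure_iff_nhds.1 hp W hW
      exact disjoint_left.1 hd hwC (hWsub ⟨hwW, (hC.subset hwC).1⟩)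

end Vale.Agent.P128.Circle.Shells
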