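import Vale.Agent.P128.Circle.Limit
import Vale.Agent.P128.Circle.Decomp

/-!
# P128, seat I: the flux identity on a component of `ball x r \ K`

The Euler-Lagrange equation is tested with `1_U · g(u) · psi(|z - x|)`.
-/

open MeasureTheory Set Metric Filter
open scoped ENNReal Topology Real RealInnerProductSpace

noncomputable section

namespace Vale.Agent.P128.Circle.Shells

open Vale.Agent.P128

variable {K : Set ℂ} {u : ℂ → ℝ} {x : ℂ} {r : ℝ} {t : ℕ → ℝ} {m : ℕ}

/-- Radial cut-off. -/
def cutoff (x : ℂ) (s₀ δ : ℝ) (z : ℂ) : ℝ := psi s₀ δ ‖z - x‖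

theorem contDiff_psi (s₀ δ : ℝ) : ContDiff ℝ 1 (psi s₀ δ) := by
  rw [contDiff_one_iff_deriv]
  refine ⟨fun s => (hasDerivAt_psi s₀ δ s).differentiableAt, ?_⟩
  rw [funext fun s => (hasDerivAt_psi s₀ δ s).deriv]
  exact ((continuous_kk.comp (by fun_prop)).div_const δ).neg

theorem cutoff_eventuallyEq_one {s₀ δ : ℝ} (hs₀ : 0 < s₀) (hδ : 0 < δ) :
    cutoff x s₀ δ =ᶠ[𝓝 x] fun _ => 1 := by
  filter_upwards [ball_mem_nhds x hs₀] with z hz
  exact psi_eq_one hδ (le_of_lt (by simpa [dist_eq_norm] using hz))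

theorem contDiff_cutoff {s₀ δ : ℝ} (hs₀ : 0 < s₀) (hδ : 0 < δ) :
    ContDiff ℝ 1 (cutoff x s₀ δ) := by
  rw [contDiff_iff_contDiffAt]
  intro z
  by_cases hz : z = x
  · subst hz
    exact contDiffAt_const.congr_of_eventuallyEq (cutoff_eventuallyEq_one hs₀ hδ)
  · exact (contDiff_psi s₀ δ).contDiffAt.comp z
      ((contDiffAt_norm ℝ (sub_ne_zero.2 hz)).comp z (contDiffAt_id.sub contDiffAt_const))

/-- The derivative of the cut-off. -/
theorem fderiv_cutoff {s₀ δ : ℝ} (hs₀ : 0 < s₀) (hδ : 0 < δ) (z w : ℂ) :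
    fderiv ℝ (cutoff x s₀ δ) z w =
      -(kk ((‖z - x‖ - s₀) / δ) / δ) * ⟪‖z - x‖⁻¹ • (z - x), w⟫ := by
  by_cases hz : z = x
  · subst hz
    rw [(cutoff_eventuallyEq_one hs₀ hδ).fderiv_eq]
    simp
  · have h0 : ‖z - x‖ ≠ 0 := norm_ne_zero_iff.2 (sub_ne_zero.2 hz)
    have h1 := (((hasFDerivAt_id (𝕜 := ℝ) z).sub_const x).norm_sq).sqrt (pow_ne_zero 2 h0)
    have h2 := (hasDerivAt_psi s₀ δ (Real.sqrt (‖z - x‖ ^ 2))).comp_hasFDerivAt z h1
    have he : cutoff x s₀ δ = fun y => psi s₀ δ (Real.sqrt (‖y - x‖ ^ 2)) := by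
      funext y; rw [cutoff, Real.sqrt_sq (norm_nonneg _)]
    rw [he]
    refine (DFunLike.congr_fun h2.fderiv w).trans ?_
    simp [Real.sqrt_sq (norm_nonneg (z - x))]
    field_simp
    left
    ring

theorem norm_dir_le (z : ℂ) : ‖‖z - x‖⁻¹ • (z - x)‖ ≤ 1 := by
  rw [norm_smul, norm_inv, norm_norm]
  exact inv_mul_le_one

theorem abs_fderiv_le (f : ℂ → ℝ) (z : ℂ) {e : ℂ} (he : ‖e‖ ≤ 1) :
    |fderiv ℝ f z e| ≤ 1 + gradSq f z := by
  have h1 : |e.re| ≤ 1 := (Complex.abs_re_le_norm e).trans he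
  have h2 : |e.im| ≤ 1 := (Complex.abs_im_le_norm e).trans he
  rw [clm_apply_eq, gradSq]
  set a := fderiv ℝ f z 1
  set b := fderiv ℝ f z Complex.I
  calc |e.re * a + e.im * b| ≤ |e.re * a| + |e.im * b| := abs_add_le _ _
    _ ≤ |a| + |b| := by
      rw [abs_mul, abs_mul]
      exact add_le_add (mul_le_of_le_one_left (abs_nonneg a) h1)
        (mul_le_of_le_one_left (abs_nonneg b) h2)
    _ ≤ 1 + (a ^ 2 + b ^ 2) := by
      nlinarith [sq_abs a, sq_abs b, sq_nonneg (|a| - 1 / 2), sq_nonneg (|b| - 1 / 2)]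

open Classical in
/-- The test function. -/
def tst (u : ℂ → ℝ) (x : ℂ) (W : Set ℂ) (g : ℝ → ℝ) (s₀ δ : ℝ) : ℂ → ℝ :=
  W.indicator fun z => g (u z) * cutoff x s₀ δ z

open Classical in
/-- The radial density. -/
def rad (u : ℂ → ℝ) (x : ℂ) (W : Set ℂ) (g : ℝ → ℝ) (z : ℂ) : ℝ :=
  W.piecewise (fun z => g (u z)) (fun _ => 0) z * fderiv ℝ u z (‖z - x‖⁻¹ • (z - x))

section

variable (h : IsGM K u) {W : Set ℂ} (hWo : IsOpen W) (hWs : W ⊆ ball x r \ K)
  (hWc : closure W ∩ ball x r ⊆ W ∪ K) {g : ℝ → ℝ} (hg : ContDiff ℝ 1 g) {B : ℝ}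
  (hB : ∀ s, |g s| ≤ B ∧ |deriv g s| ≤ B)

include hWc in
theorem tst_eventuallyEq_zero {s₀ δ : ℝ} (hδ : 0 < δ) (hsδ : s₀ + δ < r) {z : ℂ}
    (hz : z ∉ K) (hzW : z ∉ W) : tst u x W g s₀ δ =ᶠ[𝓝 z] fun _ => 0 := by
  rcases lt_or_ge ‖z - x‖ r with hlt | hge
  · have hcl : z ∉ closure W := fun hc =>
      (hWc ⟨hc, by rwa [mem_ball, dist_eq_norm]⟩).elim hzW hz
    filter_upwards [isClosed_closure.isOpen_compl.mem_nhds hcl] with y hy
    exact indicator_of_notMem (fun hyW => hy (subset_closure hyW)) _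
  · have hev : ∀ᶠ y in 𝓝 z, s₀ + δ < ‖y - x‖ :=
      (continuous_id.sub continuous_const).norm.continuousAt.eventually_mem
        (Ioi_mem_nhds (by simp; linarith))
    filter_upwards [hev] with y hy
    exact indicator_apply_eq_zero.2 fun _ => by
      rw [cutoff, psi_eq_zero hδ hy.le, mul_zero]

include hWo in
theorem tst_eventuallyEq {s₀ δ : ℝ} {z : ℂ} (hzW : z ∈ W) :
    tst u x W g s₀ δ =ᶠ[𝓝 z] fun y => g (u y) * cutoff x s₀ δ y := by
  filter_upwards [hWo.mem_nhds hzW] with y hy using indicator_of_mem hy _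

include h hWo hWc hg in
theorem contDiffAt_tst {s₀ δ : ℝ} (hs₀ : 0 < s₀) (hδ : 0 < δ) (hsδ : s₀ + δ < r) {z : ℂ}
    (hz : z ∉ K) : ContDiffAt ℝ 1 (tst u x W g s₀ δ) z := by
  by_cases hzW : z ∈ W
  · exact ((hg.contDiffAt.comp z ((h.contDiffOn 1).contDiffAt (h.isOpen_compl.mem_nhds hz))).mul
      (contDiff_cutoff hs₀ hδ).contDiffAt).congr_of_eventuallyEq (tst_eventuallyEq hWo hzW)
  · exact contDiffAt_const.congr_of_eventuallyEq (tst_eventuallyEq_zero hWc hδ hsδ hz hzW)

include h hWo hWs hg in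
theorem fderiv_tst {s₀ δ : ℝ} (hs₀ : 0 < s₀) (hδ : 0 < δ) {z : ℂ} (hzW : z ∈ W) (w : ℂ) :
    fderiv ℝ (tst u x W g s₀ δ) z w = cutoff x s₀ δ z * deriv g (u z) * fderiv ℝ u z w -
      g (u z) * (kk ((‖z - x‖ - s₀) / δ) / δ) * ⟪‖z - x‖⁻¹ • (z - x), w⟫ := by
  rw [(tst_eventuallyEq hWo hzW).fderiv_eq]
  have hu := (differentiableAt h (hWs hzW).2).hasFDerivAt
  have hg' := ((hg.differentiable (by norm_num)) (u z)).hasDerivAt
  have hgu := hg'.comp_hasFDerivAt z hu
  have hc := ((contDiff_cutoff (x := x) hs₀ hδ).differentiable (by norm_num) z).hasFDerivAt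
  refine (DFunLike.congr_fun (hgu.mul hc).fderiv w).trans ?_
  simp [fderiv_cutoff hs₀ hδ]
  ring

theorem inner_one (e : ℂ) : ⟪e, (1 : ℂ)⟫ = e.re := by simp [Complex.inner]

theorem inner_I (e : ℂ) : ⟪e, Complex.I⟫ = e.im := by simp [Complex.inner]

include h hWo hWs hWc hg in
theorem gradInner_tst {s₀ δ : ℝ} (hs₀ : 0 < s₀) (hδ : 0 < δ) (hsδ : s₀ + δ < r) {z : ℂ}
    (hz : z ∉ K) :
    gradInner u (tst u x W g s₀ δ) z =
      W.indicator (fun y => cutoff x s₀ δ y * deriv g (u y) * gradSq u y) z -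
        kk ((‖z - x‖ - s₀) / δ) / δ * rad u x W g z := by
  classical
  by_cases hzW : z ∈ W
  · rw [gradInner, fderiv_tst h hWo hWs hg hs₀ hδ hzW, fderiv_tst h hWo hWs hg hs₀ hδ hzW,
      indicator_of_mem hzW, rad, piecewise_eq_of_mem _ _ _ hzW,
      clm_apply_eq (fderiv ℝ u z) (‖z - x‖⁻¹ • (z - x)), inner_one, inner_I,
      gradSq]
    ring
  · rw [gradInner, (tst_eventuallyEq_zero hWc hδ hsδ hz hzW).fderiv_eq,
      indicator_of_notMem hzW, rad, piecewise_eq_of_notMem _ _ _ hzW]
    simp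

include h hWo hWs hg in
theorem measurable_rad : Measurable (rad u x W g) := by
  classical
  refine Measurable.mul ?_ ?_
  · exact ContinuousOn.measurable_piecewise
      (hg.continuous.comp_continuousOn (h.continuousOn.mono fun z hz => (hWs hz).2))
      continuousOn_const hWo.measurableSet
  · have he : Measurable fun z : ℂ => ‖z - x‖⁻¹ • (z - x) :=
      (measurable_id.sub_const x).norm.inv.smul (measurable_id.sub_const x)
    rw [funext fun z => clm_apply_eq (fderiv ℝ u z) (‖z - x‖⁻¹ • (z - x))]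
    exact ((Complex.measurable_re.comp he).mul (measurable_fderiv_apply_const ℝ u 1)).add
      ((Complex.measurable_im.comp he).mul (measurable_fderiv_apply_const ℝ u Complex.I))

include hB in
theorem abs_rad_le (z : ℂ) : |rad u x W g z| ≤ B * (1 + gradSq u z) := by
  classical
  rw [rad, abs_mul]
  refine mul_le_mul ?_ (abs_fderiv_le u z (norm_dir_le z)) (abs_nonneg _) ?_
  · by_cases hzW : z ∈ W
    · rw [piecewise_eq_of_mem _ _ _ hzW]; exact (hB _).1
    · rw [piecewise_eq_of_notMem _ _ _ hzW, abs_zero]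
      exact (abs_nonneg _).trans (hB 0).1
  · exact (abs_nonneg _).trans (hB 0).1

include h hWs hg hB in
theorem abs_gradSq_tst_le (hWo : IsOpen W) (hWc : closure W ∩ ball x r ⊆ W ∪ K) {s₀ δ : ℝ}
    (hs₀ : 0 < s₀) (hδ : 0 < δ) (hsδ : s₀ + δ < r) {z : ℂ} (hz : z ∉ K) :
    gradSq (tst u x W g s₀ δ) z ≤
      (ball x r).indicator (fun y => 4 * B ^ 2 * gradSq u y + 4 * (B * (2 / δ)) ^ 2) z := by
  by_cases hzW : z ∈ W
  · rw [indicator_of_mem (hWs hzW).1, gradSq, fderiv_tst h hWo hWs hg hs₀ hδ hzW,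
      fderiv_tst h hWo hWs hg hs₀ hδ hzW, inner_one, inner_I, gradSq]
    set e := ‖z - x‖⁻¹ • (z - x)
    set a := fderiv ℝ u z 1
    set b := fderiv ℝ u z Complex.I
    set p := cutoff x s₀ δ z * deriv g (u z)
    set q := g (u z) * (kk ((‖z - x‖ - s₀) / δ) / δ)
    have hc := psi_mem_Icc (s₀ := s₀) hδ ‖z - x‖
    have hp : |p| ≤ B := by
      rw [abs_mul, cutoff, abs_of_nonneg hc.1]
      exact (mul_le_of_le_one_left (abs_nonneg _) hc.2).trans (hB _).2
    have hq : |q| ≤ B * (2 / δ) := by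
      rw [abs_mul, abs_div, abs_of_pos hδ, abs_of_nonneg (kk_nonneg _)]
      exact mul_le_mul (hB _).1 (by gcongr; exact kk_le_two _)
        (div_nonneg (kk_nonneg _) hδ.le) ((abs_nonneg _).trans (hB 0).1)
    have hp2 : p ^ 2 ≤ B ^ 2 := sq_le_sq' (abs_le.1 hp).1 (abs_le.1 hp).2
    have hq2 : q ^ 2 ≤ (B * (2 / δ)) ^ 2 := sq_le_sq' (abs_le.1 hq).1 (abs_le.1 hq).2
    have he : e.re * e.re + e.im * e.im ≤ 1 := by
      rw [← Complex.normSq_apply, Complex.normSq_eq_norm_sq]
      exact pow_le_one₀ (norm_nonneg _) (norm_dir_le z)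
    nlinarith [sq_nonneg (p * a + q * e.re), sq_nonneg (p * b + q * e.im),
      mul_le_mul_of_nonneg_right hp2 (add_nonneg (sq_nonneg a) (sq_nonneg b)),
      mul_le_mul hq2 he (add_nonneg (mul_self_nonneg e.re) (mul_self_nonneg e.im))
        (sq_nonneg (B * (2 / δ))), sq_nonneg a, sq_nonneg b, sq_nonneg B]
  · rw [gradSq, (tst_eventuallyEq_zero hWc hδ hsδ hz hzW).fderiv_eq]
    simp only [fderiv_fun_const, Pi.zero_apply, zero_apply, ne_eq,
      OfNat.ofNat_ne_zero, not_false_eq_true, zero_pow, add_zero]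
    exact indicator_nonneg (fun y _ => add_nonneg (mul_nonneg (by positivity) (gradSq_nonneg u y))
      (sq_nonneg _ |> mul_nonneg (by norm_num))) z

include h hWo hWs hg hB in
theorem integrableOn_deriv_gradSq :
    IntegrableOn (fun y => deriv g (u y) * gradSq u y) W := by
  refine Integrable.mono' (g := fun y => B * gradSq u y)
    (((integrableOn_gradSq h x r).mono_set (hWs.trans sdiff_subset)).const_mul B)
    ((ContinuousOn.aestronglyMeasurable
      ((hg.continuous_deriv le_rfl).comp_continuousOn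
        (h.continuousOn.mono fun z hz => (hWs hz).2)) hWo.measurableSet).mul
      (measurable_gradSq u).aestronglyMeasurable) (Eventually.of_forall fun y => ?_)
  rw [Real.norm_eq_abs, abs_mul, abs_of_nonneg (gradSq_nonneg u y)]
  exact mul_le_mul_of_nonneg_right (hB _).2 (gradSq_nonneg u y)

end

/-- The tested equation, at a fixed cut-off. -/
theorem tested (hT : TestFor K u) (hgm : IsGM K u) {W : Set ℂ} (hWo : IsOpen W)
    (hWs : W ⊆ ball x r \ K) (hWc : closure W ∩ ball x r ⊆ W ∪ K) {g : ℝ → ℝ}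
    (hg : ContDiff ℝ 1 g) {B : ℝ} (hB : ∀ s, |g s| ≤ B ∧ |deriv g s| ≤ B) {s₀ δ : ℝ}
    (hs₀ : 0 < s₀) (hδ : 0 < δ) (hsδ : s₀ + δ < r) :
    ∫ y in W, cutoff x s₀ δ y * deriv g (u y) * gradSq u y =
      ∫ z, kk ((‖z - x‖ - s₀) / δ) / δ * rad u x W g z := by
  have hlip : LocallyLipschitzOn Kᶜ (tst u x W g s₀ δ) := by
    intro z hz
    obtain ⟨c, s, hs, hl⟩ :=
      (contDiffAt_tst hgm hWo hWc hg hs₀ hδ hsδ hz).exists_lipschitzOnWith
    exact ⟨c, s, nhdsWithin_le_nhds hs, hl⟩
  have hsupp : HasCompactSupport (tst u x W g s₀ δ) :=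
    HasCompactSupport.intro (isCompact_closedBall x r) fun z hz =>
      indicator_of_notMem (fun hzW => hz (ball_subset_closedBall (hWs hzW).1)) _
  have hbd : IntegrableOn (fun y => 4 * B ^ 2 * gradSq u y + 4 * (B * (2 / δ)) ^ 2) (ball x r) :=
    ((integrableOn_gradSq hgm x r).const_mul _).add (integrableOn_const measure_ball_lt_top.ne)
  have hdir : dirichlet K (tst u x W g s₀ δ) univ < ⊤ := by
    calc dirichlet K (tst u x W g s₀ δ) univ
        ≤ ∫⁻ z in univ \ K, ENNReal.ofReal ((ball x r).indicator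
            (fun y => 4 * B ^ 2 * gradSq u y + 4 * (B * (2 / δ)) ^ 2) z) :=
          setLIntegral_mono' (MeasurableSet.univ.diff hgm.isClosed.measurableSet) fun z hz =>
            ENNReal.ofReal_le_ofReal
              (abs_gradSq_tst_le hgm hWs hg hB hWo hWc hs₀ hδ hsδ hz.2)
      _ ≤ ∫⁻ z, ENNReal.ofReal ((ball x r).indicator
            (fun y => 4 * B ^ 2 * gradSq u y + 4 * (B * (2 / δ)) ^ 2) z) :=
          setLIntegral_le_lintegral _ _
      _ < ⊤ := (hbd.integrable_indicator measurableSet_ball).lintegral_lt_top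
  obtain ⟨-, hzero⟩ := hT _ hlip hsupp hdir
  have hae : (Kᶜ : Set ℂ) =ᵐ[volume] (univ : Set ℂ) := by
    rw [ae_eq_univ, compl_compl]; exact hgm.volume_eq_zero
  set A := W.indicator fun y => cutoff x s₀ δ y * deriv g (u y) * gradSq u y with hA
  set R := fun z => kk ((‖z - x‖ - s₀) / δ) / δ * rad u x W g z with hR
  have hAi : Integrable A := by
    rw [hA, integrable_indicator_iff hWo.measurableSet]
    have := (integrableOn_deriv_gradSq hgm hWo hWs hg hB).bdd_mul (c := 1)
      ((contDiff_cutoff (x := x) hs₀ hδ).continuous.aestronglyMeasurable)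
      (Eventually.of_forall fun y => by
        rw [Real.norm_eq_abs, cutoff, abs_of_nonneg (psi_mem_Icc hδ _).1]
        exact (psi_mem_Icc hδ _).2)
    exact this.congr (Eventually.of_forall fun y => by ring)
  have hRi : Integrable R := by
    have hw : Measurable fun z : ℂ => kk ((‖z - x‖ - s₀) / δ) / δ :=
      ((continuous_kk.comp (by fun_prop)).div_const δ).measurable
    have hb' : IntegrableOn (fun z => 2 / δ * (B * (1 + gradSq u z))) (ball x r) :=
      (((integrableOn_const measure_ball_lt_top.ne).add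
        (integrableOn_gradSq hgm x r)).const_mul B).const_mul (2 / δ)
    refine Integrable.mono'
      (g := (ball x r).indicator fun z => 2 / δ * (B * (1 + gradSq u z)))
      (hb'.integrable_indicator measurableSet_ball)
      (hw.mul (measurable_rad hgm hWo hWs hg)).aestronglyMeasurable
      (Eventually.of_forall fun z => ?_)
    by_cases hzW : z ∈ W
    · rw [indicator_of_mem (hWs hzW).1, Real.norm_eq_abs, hR, abs_mul, abs_div, abs_of_pos hδ,
        abs_of_nonneg (kk_nonneg _)]
      exact mul_le_mul (by gcongr; exact kk_le_two _) (abs_rad_le hB z) (abs_nonneg _)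
        (by positivity)
    · have : R z = 0 := by simp [hR, rad, hzW]
      rw [this, norm_zero]
      exact indicator_nonneg (fun y _ => mul_nonneg (by positivity)
        (mul_nonneg ((abs_nonneg _).trans (hB 0).1) (by linarith [gradSq_nonneg u y]))) z
  have heq : ∫ z, A z - R z = 0 := by
    rw [← setIntegral_univ, ← setIntegral_congr_set hae, ← hzero]
    exact setIntegral_congr_fun hgm.isClosed.measurableSet.compl fun z hz =>
      (gradInner_tst hgm hWo hWs hWc hg hs₀ hδ hsδ hz).symm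
  rw [integral_sub hAi hRi, sub_eq_zero, hA, integral_indicator hWo.measurableSet] at heq
  exact heq

/-- The component flux identity. -/
theorem flux (hT : TestFor K u) (hgm : IsGM K u) (hr : GoodRadius K u x r)
    (ht : IsPartition K x r t m) {U : ℕ → Set ℂ} (hU : ArcComps K x r t m U) {i : ℕ} (hi : i < m)
    {g : ℝ → ℝ} (hg : ContDiff ℝ 1 g) {B : ℝ} (hB : ∀ s, |g s| ≤ B ∧ |deriv g s| ≤ B) :
    ∫ z in U i, deriv g (u z) * gradSq u z =
      ∑ j ∈ arcsOf U m i, ∫ θ in (t j)..(t (j + 1)),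
        g (u (circleMap x r θ)) * (r * dR u x r θ) := by
  classical
  have hB0 : 0 ≤ B := (abs_nonneg _).trans (hB 0).1
  set W := U i with hW
  have hWo : IsOpen W := hU.isOpen i hi
  have hWs : W ⊆ ball x r \ K := hU.subset i hi
  have hWc := hU.relClosed i hi
  set Fr : ℝ → ℝ := fun θ => if W ∈ 𝓝[ball x r] circleMap x r θ
    then g (u (circleMap x r θ)) * dR u x r θ else 0 with hFr
  have harc : ∀ j < m, ∀ θ ∈ Ioo (t j) (t (j + 1)),
      (W ∈ 𝓝[ball x r] circleMap x r θ ↔ U j = W) := by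
    intro j hj θ hθ
    refine ⟨fun hmem => ?_, fun he => he ▸ hU.inner j hj θ hθ⟩
    rcases hU.disjoint j hj i hi with he | hd
    · exact he
    · obtain ⟨z, hz⟩ := (nhdsWithin_ball_neBot (x := x) hr.pos θ).nonempty_of_mem
        (inter_mem (hU.inner j hj θ hθ) hmem)
      exact absurd hz.2 (disjoint_left.1 hd hz.1)
  -- limit of the radial density
  have hlim : ∀ θ ∈ Ioo (t 0) (t 0 + 2 * π), circleMap x r θ ∉ K →
      Tendsto (rad u x W g) (𝓝[ball x r] circleMap x r θ) (𝓝 (Fr θ)) := by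
    intro θ hθ hθK
    rw [← ht.2.1] at hθ
    obtain ⟨j, hj, h1, h2⟩ := exists_index hθ.1.le hθ.2
    have h1' : t j < θ := lt_of_le_of_ne h1 fun he => hθK (he ▸ (ht.2.2 j hj).2)
    by_cases hmem : W ∈ 𝓝[ball x r] circleMap x r θ
    · simp only [hFr, if_pos hmem]
      have hp0 : ‖circleMap x r θ - x‖ ≠ 0 := by
        simp [circleMap_sub_center, abs_of_pos hr.pos, hr.pos.ne']
      have hu : ContinuousAt u (circleMap x r θ) :=
        (hgm.continuousOn).continuousAt (hgm.isOpen_compl.mem_nhds hθK)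
      have hdu : ContinuousAt (fderiv ℝ u) (circleMap x r θ) :=
        ((hgm.contDiffOn 1).continuousOn_fderiv_of_isOpen hgm.isOpen_compl le_rfl).continuousAt
          (hgm.isOpen_compl.mem_nhds hθK)
      have hec : ContinuousAt (fun z : ℂ => ‖z - x‖⁻¹ • (z - x)) (circleMap x r θ) :=
        ((continuousAt_id.sub continuousAt_const).norm.inv₀ hp0).smul
          (continuousAt_id.sub continuousAt_const)
      have hval : ‖circleMap x r θ - x‖⁻¹ • (circleMap x r θ - x) =
          Complex.exp (θ * Complex.I) := by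
        rw [circleMap_sub_center, norm_circleMap_zero, abs_of_pos hr.pos, circleMap_zero,
          ← Complex.real_smul, smul_smul, inv_mul_cancel₀ hr.pos.ne', one_smul]
      have hT' : Tendsto (fun z => g (u z) * fderiv ℝ u z (‖z - x‖⁻¹ • (z - x)))
          (𝓝 (circleMap x r θ)) (𝓝 (g (u (circleMap x r θ)) * dR u x r θ)) := by
        have := ((hg.continuous.continuousAt.comp hu).mul (hdu.clm_apply hec)).tendsto
        simpa only [Function.comp_def, hval, dR, Pi.mul_def] using this
      refine (hT'.mono_left nhdsWithin_le_nhds).congr' ?_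
      filter_upwards [hmem] with z hz
      rw [rad, piecewise_eq_of_mem _ _ _ hz]
    · simp only [hFr, if_neg hmem]
      refine tendsto_const_nhds.congr' ?_
      filter_upwards [hU.inner j hj θ ⟨h1', h2⟩] with z hz
      have hzW : z ∉ W := by
        rcases hU.disjoint j hj i hi with he | hd
        · exact absurd ((harc j hj θ ⟨h1', h2⟩).2 he) hmem
        · exact disjoint_left.1 hd hz
      rw [rad, piecewise_eq_of_notMem _ _ _ hzW, zero_mul]
  -- the shell side
  have hshell := shell_tendsto hgm hr ht (rad u x W g) (measurable_rad hgm hWo hWs hg) B hB0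
    (abs_rad_le hB) Fr hlim
  -- the volume side
  have hvol : Tendsto
      (fun n => ∫ y in W, cutoff x (r - 2 * dlt r n) (dlt r n) y * deriv g (u y) * gradSq u y)
      atTop (𝓝 (∫ y in W, deriv g (u y) * gradSq u y)) := by
    have hi' := integrableOn_deriv_gradSq hgm hWo hWs hg hB
    refine tendsto_integral_of_dominated_convergence (fun y => |deriv g (u y) * gradSq u y|)
      (fun n => ?_) hi'.abs (fun n => ?_) ?_
    · have := (hi'.aestronglyMeasurable).const_mul (1 : ℝ)
      refine (((contDiff_cutoff (x := x) (s₀ := r - 2 * dlt r n) ?_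
        (dlt_pos hr.pos n)).continuous.aestronglyMeasurable).mul hi'.aestronglyMeasurable).congr
          (Eventually.of_forall fun y => by simp only [Pi.mul_apply]; ring)
      linarith [dlt_le hr.pos n, hr.pos]
    · refine Eventually.of_forall fun y => ?_
      rw [Real.norm_eq_abs, mul_assoc, abs_mul, cutoff,
        abs_of_nonneg (psi_mem_Icc (dlt_pos hr.pos n) _).1]
      exact mul_le_of_le_one_left (abs_nonneg _) (psi_mem_Icc (dlt_pos hr.pos n) _).2
    · filter_upwards [ae_restrict_mem hWo.measurableSet] with y hy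
      have hyr : ‖y - x‖ < r := by
        have := (hWs hy).1; rwa [mem_ball, dist_eq_norm] at this
      refine tendsto_nhds_of_eventually_eq ?_
      filter_upwards [((tendsto_dlt r).const_mul 2).eventually
        (Iio_mem_nhds (show 2 * (0 : ℝ) < r - ‖y - x‖ by linarith))] with n hn
      rw [cutoff, psi_eq_one (dlt_pos hr.pos n) (by linarith [hn]), one_mul]
  have hsame : ∀ n,
      ∫ y in W, cutoff x (r - 2 * dlt r n) (dlt r n) y * deriv g (u y) * gradSq u y =
        ∫ z, kk ((‖z - x‖ - (r - 2 * dlt r n)) / dlt r n) / dlt r n * rad u x W g z := fun n =>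
    tested hT hgm hWo hWs hWc hg hB (by linarith [dlt_le hr.pos n, hr.pos]) (dlt_pos hr.pos n)
      (by linarith [dlt_pos hr.pos n])
  rw [tendsto_nhds_unique hvol (hshell.congr fun n => (hsame n).symm)]
  -- split the circle into arcs
  have hFrI : ∀ j < m, IntervalIntegrable (fun θ => r * Fr θ) volume (t j) (t (j + 1)) ∧
      ∫ θ in (t j)..(t (j + 1)), r * Fr θ = if U j = W then
        ∫ θ in (t j)..(t (j + 1)), g (u (circleMap x r θ)) * (r * dR u x r θ) else 0 := by
    intro j hj
    have hlt := (ht.2.2 j hj).1.1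
    have hfree := (ht.2.2 j hj).1.2.2
    have hae2 : ∀ᵐ θ ∂volume.restrict (uIoc (t j) (t (j + 1))), θ ∈ Ioo (t j) (t (j + 1)) := by
      rw [uIoc_of_le hlt.le, ← restrict_Ioo_eq_restrict_Ioc]
      exact ae_restrict_mem measurableSet_Ioo
    by_cases he : U j = W
    · have heq : (fun θ => r * Fr θ) =ᵐ[volume.restrict (uIoc (t j) (t (j + 1)))]
          fun θ => g (u (circleMap x r θ)) * (r * dR u x r θ) := by
        filter_upwards [hae2] with θ hθ
        simp only [hFr, if_pos ((harc j hj θ hθ).2 he)]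
        ring
      have hI : IntervalIntegrable (fun θ => g (u (circleMap x r θ)) * (r * dR u x r θ)) volume
          (t j) (t (j + 1)) := by
        refine (((intervalIntegrable_of_sq (measurable_dR u x r) (hr.intR _ _)).abs.const_mul
          (B * r))).mono_fun ?_ ?_
        · rw [uIoc_of_le hlt.le, ← restrict_Ioo_eq_restrict_Ioc]
          refine AEStronglyMeasurable.mul ?_
            ((measurable_dR u x r).const_mul r).aestronglyMeasurable
          exact ContinuousOn.aestronglyMeasurable (hg.continuous.comp_continuousOn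
            (hgm.continuousOn.comp (continuous_circleMap x r).continuousOn hfree))
            measurableSet_Ioo
        · refine Eventually.of_forall fun θ => ?_
          simp only [Real.norm_eq_abs, abs_mul, abs_abs, abs_of_pos hr.pos, abs_of_nonneg hB0]
          rw [mul_assoc B]
          exact mul_le_mul_of_nonneg_right (hB _).1 (by positivity [hr.pos])
      exact ⟨hI.congr_ae heq.symm, by
        rw [if_pos he]; exact intervalIntegral.integral_congr_ae ((ae_restrict_iff'
          measurableSet_uIoc).1 heq)⟩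
    · have heq : (fun θ => r * Fr θ) =ᵐ[volume.restrict (uIoc (t j) (t (j + 1)))]
          fun _ => (0 : ℝ) := by
        filter_upwards [hae2] with θ hθ
        simp only [hFr, if_neg fun hm => he ((harc j hj θ hθ).1 hm), mul_zero]
      exact ⟨intervalIntegrable_const.congr_ae heq.symm, by
        rw [if_neg he, intervalIntegral.integral_congr_ae ((ae_restrict_iff'
          measurableSet_uIoc).1 heq), intervalIntegral.integral_zero]⟩
  rw [← intervalIntegral.integral_const_mul, ← ht.2.1,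
    ← intervalIntegral.sum_integral_adjacent_intervals fun j hj => (hFrI j hj).1, arcsOf,
    Finset.sum_filter]
  exact Finset.sum_congr rfl fun j hj => by
    rw [(hFrI j (Finset.mem_range.1 hj)).2]

/-- An open piece of the disc that is relatively closed off `K` is flat. -/
theorem gradSq_eq_zero_of_closed (hT : TestFor K u) (hgm : IsGM K u) {W : Set ℂ} (hWo : IsOpen W)
    (hWs : W ⊆ ball x r \ K) (hWc : closure W ∩ Kᶜ ⊆ W) : ∀ z ∈ W, gradSq u z = 0 := by
  classical
  intro z hz
  have hr : 0 < r := dist_nonneg.trans_lt (hWs hz).1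
  have hB : ∀ s : ℝ, |Real.arctan s| ≤ 2 ∧ |deriv Real.arctan s| ≤ 2 := fun s => by
    refine ⟨abs_le.2 ⟨?_, ?_⟩, ?_⟩
    · linarith [Real.neg_pi_div_two_lt_arctan s, Real.pi_lt_four]
    · linarith [Real.arctan_lt_pi_div_two s, Real.pi_lt_four]
    · rw [Real.deriv_arctan, abs_of_pos (by positivity), div_le_iff₀ (by positivity)]
      nlinarith [sq_nonneg s]
  have hWs' : W ⊆ ball x (r + 3) \ K := fun y hy =>
    ⟨ball_subset_ball (by linarith) (hWs hy).1, (hWs hy).2⟩
  have hWc' : closure W ∩ ball x (r + 3) ⊆ W ∪ K := fun y hy =>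
    (em (y ∈ K)).elim Or.inr fun hyK => Or.inl (hWc ⟨hy.1, hyK⟩)
  have ht := tested hT hgm hWo hWs' hWc' (Real.contDiff_arctan (n := 1)) hB
    (show (0 : ℝ) < r + 1 by linarith) one_pos (by linarith)
  have hin : ∀ y ∈ W, ‖y - x‖ < r := fun y hy => by
    simpa [dist_eq_norm] using (hWs hy).1
  have hR : ∫ y, kk ((‖y - x‖ - (r + 1)) / 1) / 1 * rad u x W Real.arctan y = 0 := by
    refine integral_eq_zero_of_ae (Eventually.of_forall fun y => ?_)
    by_cases hy : y ∈ W
    · simp [kk_eq_zero (Or.inl (show ‖y - x‖ - (r + 1) ≤ 0 by linarith [hin y hy]))]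
    · simp [rad, hy]
  have hL : ∫ y in W, deriv Real.arctan (u y) * gradSq u y = 0 := by
    rw [← hR, ← ht]
    refine setIntegral_congr_fun hWo.measurableSet fun y hy => ?_
    simp only [cutoff, psi_eq_one one_pos (show ‖y - x‖ ≤ r + 1 by linarith [hin y hy]), one_mul]
  have hnn : ∀ y, 0 ≤ deriv Real.arctan (u y) * gradSq u y := fun y => by
    rw [Real.deriv_arctan]
    exact mul_nonneg (by positivity) (gradSq_nonneg u y)
  have hae := (setIntegral_eq_zero_iff_of_nonneg_ae (Eventually.of_forall hnn)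
    (integrableOn_deriv_gradSq hgm hWo hWs' (Real.contDiff_arctan (n := 1)) hB)).1 hL
  have hcont : ContinuousOn (fun y => deriv Real.arctan (u y) * gradSq u y) W := by
    have hdu := ((hgm.contDiffOn 1).continuousOn_fderiv_of_isOpen hgm.isOpen_compl le_rfl).mono
      fun y hy => (hWs hy).2
    refine ((Real.contDiff_arctan (n := 1)).continuous_deriv le_rfl).comp_continuousOn
      (hgm.continuousOn.mono fun y hy => (hWs hy).2) |>.mul ?_
    exact ((hdu.clm_apply continuousOn_const).pow 2).add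
      ((hdu.clm_apply continuousOn_const).pow 2)
  have h0 : deriv Real.arctan (u z) * gradSq u z = 0 :=
    Measure.eqOn_open_of_ae_eq hae hWo hcont continuousOn_const hz
  refine (mul_eq_zero.1 h0).resolve_left ?_
  rw [Real.deriv_arctan]
  positivity

end Vale.Agent.P128.Circle.Shells

namespace Vale.Agent.P128.Circle

/-- At a good radius the disc splits into finitely many components satisfying the flux identity,
and possibly flat rest. -/
theorem compFor {K : Set ℂ} {u : ℂ → ℝ} (hT : TestFor K u) (h : IsGM K u) : CompFor K u := by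
  intro x r hr t m ht
  obtain ⟨U, hU, hrest⟩ := Shells.exists_arcComps h.isClosed hr.pos ht
  refine ⟨U, hU, fun i hi g hg ⟨_, hB⟩ => Shells.flux hT h hr ht hU hi hg hB, fun z hz hno => ?_⟩
  obtain ⟨C, hCo, hzC, hCs, hCc⟩ := hrest z hz hno
  exact Shells.gradSq_eq_zero_of_closed hT h hCo hCs hCc z hzC

/-- The component decomposition, general case. -/
theorem genCompIdentity (hT : GenTestSpec) : GenCompIdentitySpec :=
  fun K u h => compFor (hT K u h) h

/-- The component decomposition. -/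
theorem compIdentity (hT : TestSpec) : CompIdentitySpec :=
  genCompIdentity hT

end Vale.Agent.P128.Circle
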