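import Mathlib

/-!
# P128: Eilenberg inequality for real Lipschitz functions

`∫⁻ t, #(K ∩ f ⁻¹' {t}) ≤ K_f * μH[1] K`; the left side is a lower integral, so no measurability of
the counting function is needed.
-/

open MeasureTheory Set Filter Metric
open scoped Topology ENNReal NNReal

noncomputable section

namespace Vale.Agent.P128

variable {X : Type*} [MetricSpace X] [MeasurableSpace X] [BorelSpace X]

omit [MeasurableSpace X] [BorelSpace X] in
/-- A separated finite subset of a fibre is counted by the sets of a fine cover. -/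
theorem card_le_tsum_indicator {f : X → ℝ} {K : Set X} {U : ℕ → Set X} (hU : K ⊆ ⋃ i, U i)
    {r : ℝ≥0∞} (hd : ∀ i, ediam (U i) ≤ r) {t : ℝ} {F : Finset X}
    (hF : (F : Set X) ⊆ K ∩ f ⁻¹' {t})
    (hsep : ∀ x ∈ F, ∀ y ∈ F, x ≠ y → r < edist x y) :
    (F.card : ℝ≥0∞) ≤ ∑' i, (closure (f '' U i)).indicator 1 t := by
  classical
  have hch : ∀ x : F, ∃ i, (x : X) ∈ U i := fun x => mem_iUnion.1 (hU (hF x.2).1)
  choose idx hidx using hch
  have hinj : Function.Injective idx := by
    intro x y hxy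
    by_contra hne
    have h1 := hsep x x.2 y y.2 fun h => hne (Subtype.ext h)
    exact absurd ((edist_le_ediam_of_mem (hidx x) (hxy ▸ hidx y)).trans (hd _)) (not_le.2 h1)
  have hone : ∀ i ∈ Finset.univ.image idx, (closure (f '' U i)).indicator (1 : ℝ → ℝ≥0∞) t = 1 := by
    intro i hi
    obtain ⟨x, -, rfl⟩ := Finset.mem_image.1 hi
    have hm : t ∈ f '' U (idx x) := ⟨x, hidx x, (hF x.2).2⟩
    exact indicator_of_mem (subset_closure hm) _
  calc (F.card : ℝ≥0∞) = ∑ i ∈ Finset.univ.image idx, (closure (f '' U i)).indicator 1 t := by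
        rw [Finset.sum_congr rfl hone, Finset.sum_const, Finset.card_image_of_injective _ hinj]
        simp
    _ ≤ _ := ENNReal.sum_le_tsum _

/-- **Eilenberg inequality** for a Lipschitz real function. -/
theorem eilenberg {f : X → ℝ} {C : ℝ≥0} (hf : LipschitzWith C f) (K : Set X) :
    ∫⁻ t, ((K ∩ f ⁻¹' {t}).encard : ℝ≥0∞) ≤ C * μH[1] K := by
  rcases eq_or_ne (μH[1] K) ∞ with htop | hfin
  · rcases eq_or_ne C 0 with rfl | hC
    · -- constant function: the integrand vanishes off one point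
      have hae : (fun t => ((K ∩ f ⁻¹' {t}).encard : ℝ≥0∞)) =ᵐ[volume] 0 := by
        rcases K.eq_empty_or_nonempty with rfl | ⟨x₀, -⟩
        · exact .of_forall fun t => by simp
        · have hne : ∀ᵐ t : ℝ, t ≠ f x₀ := by simp [ae_iff, measure_singleton]
          filter_upwards [hne] with t ht
          have : K ∩ f ⁻¹' {t} = ∅ := by
            refine eq_empty_of_forall_notMem fun x hx => ht ?_
            have h0 := hf x x₀
            simp only [ENNReal.coe_zero, zero_mul, nonpos_iff_eq_zero, edist_eq_zero] at h0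
            exact hx.2.symm.trans h0
          simp [this]
      rw [lintegral_congr_ae hae]; simp
    · rw [htop, ENNReal.mul_top (by simpa using hC)]; exact le_top
  -- fine covers almost realising the measure
  have hcov : ∀ n : ℕ, ∃ U : ℕ → Set X, K ⊆ ⋃ i, U i ∧ (∀ i, ediam (U i) ≤ (n + 1 : ℝ≥0∞)⁻¹) ∧
      ∑' i, ediam (f '' U i) ≤ C * (μH[1] K + (n + 1 : ℝ≥0∞)⁻¹) := by
    intro n
    have hr : (0 : ℝ≥0∞) < (n + 1 : ℝ≥0∞)⁻¹ := by simp
    have hle : ⨅ (t : ℕ → Set X) (_ : K ⊆ ⋃ i, t i) (_ : ∀ i, ediam (t i) ≤ (n + 1 : ℝ≥0∞)⁻¹),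
        ∑' i, ⨆ _ : (t i).Nonempty, ediam (t i) ^ (1 : ℝ) < μH[1] K + (n + 1 : ℝ≥0∞)⁻¹ := by
      refine lt_of_le_of_lt ?_ (ENNReal.lt_add_right hfin hr.ne')
      rw [Measure.hausdorffMeasure_apply]
      exact le_iSup₂ (f := fun r (_ : 0 < r) => ⨅ (t : ℕ → Set X) (_ : K ⊆ ⋃ i, t i)
        (_ : ∀ i, ediam (t i) ≤ r), ∑' i, ⨆ _ : (t i).Nonempty, ediam (t i) ^ (1 : ℝ)) _ hr
    simp only [iInf_lt_iff] at hle
    obtain ⟨U, hU, hd, hsum⟩ := hle
    refine ⟨U, hU, hd, ?_⟩
    calc ∑' i, ediam (f '' U i) ≤ ∑' i, C * ⨆ _ : (U i).Nonempty, ediam (U i) ^ (1 : ℝ) := by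
          refine ENNReal.tsum_le_tsum fun i => ?_
          rcases (U i).eq_empty_or_nonempty with he | hne
          · simp [he]
          · rw [iSup_pos hne, ENNReal.rpow_one]; exact hf.ediam_image_le _
      _ ≤ _ := by rw [ENNReal.tsum_mul_left]; exact mul_le_mul_right hsum.le _
  choose U hU hd hsum using hcov
  set g : ℕ → ℝ → ℝ≥0∞ := fun n t => ∑' i, (closure (f '' U n i)).indicator 1 t with hg
  have hpt : ∀ t, ((K ∩ f ⁻¹' {t}).encard : ℝ≥0∞) ≤ liminf (fun n => g n t) atTop := by
    intro t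
    have key : ∀ F : Finset X, (F : Set X) ⊆ K ∩ f ⁻¹' {t} →
        (F.card : ℝ≥0∞) ≤ liminf (fun n => g n t) atTop := by
      intro F hF
      refine le_liminf_of_le (by isBoundedDefault) ?_
      have hev : ∀ x ∈ F, ∀ y ∈ F, x ≠ y → ∀ᶠ n : ℕ in atTop, (n + 1 : ℝ≥0∞)⁻¹ < edist x y := by
        intro x _ y _ hne
        have h0 : Tendsto (fun n : ℕ => (n + 1 : ℝ≥0∞)⁻¹) atTop (𝓝 0) := by
          have h := ENNReal.tendsto_inv_nat_nhds_zero.comp (tendsto_add_atTop_nat 1)
          simpa [Function.comp_def] using h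
        exact h0.eventually (gt_mem_nhds (edist_pos.2 hne))
      have hall : ∀ᶠ n : ℕ in atTop, ∀ p ∈ F ×ˢ F,
          p.1 ≠ p.2 → (n + 1 : ℝ≥0∞)⁻¹ < edist p.1 p.2 := by
        refine (eventually_all_finset _).2 fun p hp => ?_
        rcases Finset.mem_product.1 hp with ⟨hx, hy⟩
        by_cases hne : p.1 = p.2
        · exact .of_forall fun n h => absurd hne h
        · exact (hev _ hx _ hy hne).mono fun n hn _ => hn
      filter_upwards [hall] with n hn
      exact card_le_tsum_indicator (hU n) (hd n) hF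
        fun x hx y hy hne => hn (x, y) (Finset.mem_product.2 ⟨hx, hy⟩) hne
    rcases (K ∩ f ⁻¹' {t}).finite_or_infinite with hS | hS
    · rw [hS.encard_eq_coe_toFinset_card]
      simpa using key hS.toFinset (by simp)
    · refine le_of_forall_lt fun c hc => ?_
      obtain ⟨n, hn⟩ := ENNReal.exists_nat_gt hc.ne_top
      obtain ⟨F, hF, hFn⟩ := hS.exists_subset_card_eq n
      exact hn.trans_le (hFn ▸ key F hF)
  have hmeas : ∀ n, Measurable (g n) := fun n =>
    Measurable.tsum fun i => measurable_one.indicator isClosed_closure.measurableSet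
  calc ∫⁻ t, ((K ∩ f ⁻¹' {t}).encard : ℝ≥0∞)
      ≤ ∫⁻ t, liminf (fun n => g n t) atTop := lintegral_mono hpt
    _ ≤ liminf (fun n => ∫⁻ t, g n t) atTop := lintegral_liminf_le hmeas
    _ ≤ liminf (fun n : ℕ => C * (μH[1] K + (n + 1 : ℝ≥0∞)⁻¹)) atTop := by
        refine liminf_le_liminf (.of_forall fun n => ?_)
        simp only [hg]
        rw [lintegral_tsum fun i =>
          (measurable_one.indicator isClosed_closure.measurableSet).aemeasurable]
        refine le_trans (ENNReal.tsum_le_tsum fun i => ?_) (hsum n)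
        rw [lintegral_indicator_one isClosed_closure.measurableSet]
        exact (Real.volume_le_diam _).trans (ediam_closure _).le
    _ = C * μH[1] K := by
        refine Tendsto.liminf_eq ?_
        have h0 : Tendsto (fun n : ℕ => (n + 1 : ℝ≥0∞)⁻¹) atTop (𝓝 0) := by
          have h := ENNReal.tendsto_inv_nat_nhds_zero.comp (tendsto_add_atTop_nat 1)
          simpa [Function.comp_def] using h
        have h1 : Tendsto (fun n : ℕ => μH[1] K + (n + 1 : ℝ≥0∞)⁻¹) atTop (𝓝 (μH[1] K)) := by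
          simpa using tendsto_const_nhds.add h0
        exact ENNReal.Tendsto.const_mul h1 (Or.inr (by simp))

/-- Eilenberg inequality for the circles about `x`. -/
theorem eilenberg_dist (x : X) (K : Set X) :
    ∫⁻ r, ((K ∩ {z | dist z x = r}).encard : ℝ≥0∞) ≤ μH[1] K := by
  have h := eilenberg (LipschitzWith.dist_left x) K
  rw [ENNReal.coe_one, one_mul] at h
  simpa [preimage] using h

end Vale.Agent.P128
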