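import Mathlib

/-!
# P128: Wirtinger inequalities on an interval

Dirichlet form by the tangent identity, and the mean-zero form by the primitive trick.
Functions are primitives `V x = V a + ∫ t in a..x, g t` with `g` and `g ^ 2` integrable.
-/

open MeasureTheory Set Filter
open scoped Topology

noncomputable section

namespace Vale.Agent.P128

/-- A primitive of an integrable function is absolutely continuous. -/
theorem primitive_ac {a b : ℝ} {V g : ℝ → ℝ} (hab : a ≤ b)
    (hg : IntervalIntegrable g volume a b) (hV : ∀ x ∈ Icc a b, V x = V a + ∫ t in a..x, g t) :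
    AbsolutelyContinuousOnInterval V a b := by
  have h1 := hg.absolutelyContinuousOnInterval_intervalIntegral (c := a) left_mem_uIcc
  have h2 : AbsolutelyContinuousOnInterval (fun _ : ℝ => V a) a b :=
    contDiff_const.contDiffOn.absolutelyContinuousOnInterval
  have h3 := h2.add h1
  rw [absolutelyContinuousOnInterval_iff] at h3 ⊢
  intro ε hε
  obtain ⟨δ, hδ, h⟩ := h3 ε hε
  refine ⟨δ, hδ, fun E hE hlt => ?_⟩
  refine lt_of_eq_of_lt (Finset.sum_congr rfl fun i hi => ?_) (h E hE hlt)
  have hm := hE.1 i hi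
  rw [uIcc_of_le hab] at hm
  simp only [Pi.add_apply]
  rw [hV _ hm.1, hV _ hm.2]

/-- The derivative of a primitive is the integrand almost everywhere. -/
theorem primitive_deriv {a b : ℝ} {V g : ℝ → ℝ} (hab : a ≤ b)
    (hg : IntervalIntegrable g volume a b) (hV : ∀ x ∈ Icc a b, V x = V a + ∫ t in a..x, g t) :
    ∀ᵐ x, x ∈ uIoc a b → HasDerivAt V (g x) x := by
  have hb : ∀ᵐ x : ℝ, x ≠ b := by simp [ae_iff, measure_singleton]
  filter_upwards [hg.ae_hasDerivAt_integral, hb] with x hx hxb hmem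
  rw [uIoc_of_le hab] at hmem
  have hxI : x ∈ Ioo a b := ⟨hmem.1, lt_of_le_of_ne hmem.2 hxb⟩
  have h := (hx (by rw [uIcc_of_le hab]; exact Ioo_subset_Icc_self hxI) a left_mem_uIcc).const_add
    (V a)
  refine h.congr_of_eventuallyEq ?_
  filter_upwards [Icc_mem_nhds hxI.1 hxI.2] with y hy using hV y hy

/-- The tangent step: `k² ∫ V² ≤ ∫ g²` whenever `k (b - a) < π` and `V` vanishes at both ends. -/
theorem wirtinger_step {a b k : ℝ} {V g : ℝ → ℝ} (hab : a ≤ b) (hk : 0 ≤ k)
    (hkl : k * (b - a) < Real.pi) (hg : IntervalIntegrable g volume a b)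
    (hg2 : IntervalIntegrable (fun x => g x ^ 2) volume a b)
    (hV : ∀ x ∈ Icc a b, V x = V a + ∫ t in a..x, g t) (ha : V a = 0) (hb : V b = 0) :
    k ^ 2 * ∫ x in a..b, V x ^ 2 ≤ ∫ x in a..b, g x ^ 2 := by
  set c := (a + b) / 2 with hc
  set T : ℝ → ℝ := fun x => k * Real.tan (k * (x - c)) with hT
  have hcos : ∀ x ∈ Icc a b, Real.cos (k * (x - c)) ≠ 0 := by
    intro x hx
    have h1 : k * (x - c) ≤ k * ((b - a) / 2) :=
      mul_le_mul_of_nonneg_left (by rw [hc]; linarith [hx.2]) hk
    have h2 : k * (-((b - a) / 2)) ≤ k * (x - c) :=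
      mul_le_mul_of_nonneg_left (by rw [hc]; linarith [hx.1]) hk
    exact (Real.cos_pos_of_mem_Ioo ⟨by linarith, by linarith⟩).ne'
  have hTd : ∀ x ∈ Icc a b, HasDerivAt T (k ^ 2 + T x ^ 2) x := by
    intro x hx
    have hid : HasDerivAt (fun y : ℝ => k * (y - c)) (k * 1) x :=
      ((hasDerivAt_id x).sub_const c).const_mul k
    have h := ((Real.hasDerivAt_tan (hcos x hx)).comp x hid).const_mul k
    refine h.congr_deriv ?_
    have hs := Real.sin_sq_add_cos_sq (k * (x - c))
    have h0 := hcos x hx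
    simp only [hT, Real.tan_eq_sin_div_cos]
    field_simp
    linear_combination (-k ^ 2) * hs
  have hTc : ContinuousOn T (Icc a b) := fun x hx => (hTd x hx).continuousAt.continuousWithinAt
  have hTac : AbsolutelyContinuousOnInterval T a b := by
    refine ContDiffOn.absolutelyContinuousOnInterval fun x hx => ?_
    rw [uIcc_of_le hab] at hx
    have h : ContDiffAt ℝ 1 (fun y => k * (y - c)) x := by fun_prop
    exact (contDiffAt_const.mul
      ((Real.contDiffAt_tan.2 (hcos x hx)).comp x h)).contDiffWithinAt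
  have hVac := primitive_ac hab hg hV
  have hVc : ContinuousOn V (uIcc a b) := hVac.continuousOn
  have hTc' : ContinuousOn T (uIcc a b) := by rwa [uIcc_of_le hab]
  have key := hTac.integral_deriv_mul_eq_sub (hVac.mul hVac)
  simp only [Pi.mul_apply, ha, hb, mul_zero, sub_zero] at key
  have hae : ∀ᵐ x, x ∈ uIoc a b → deriv T x * (V x * V x) + T x * deriv (V * V) x =
      (k ^ 2 + T x ^ 2) * V x ^ 2 + 2 * (T x * V x) * g x := by
    filter_upwards [primitive_deriv hab hg hV] with x hx hmem
    have hxI : x ∈ Icc a b := by rw [uIoc_of_le hab] at hmem; exact Ioc_subset_Icc_self hmem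
    rw [(hTd x hxI).deriv, ((hx hmem).mul (hx hmem)).deriv]
    ring
  rw [intervalIntegral.integral_congr_ae hae] at key
  have i1 : IntervalIntegrable (fun x => (k ^ 2 + T x ^ 2) * V x ^ 2) volume a b :=
    ((continuousOn_const.add (hTc'.pow 2)).mul (hVc.pow 2)).intervalIntegrable
  have i2 : IntervalIntegrable (fun x => 2 * (T x * V x) * g x) volume a b :=
    hg.continuousOn_mul (continuousOn_const.mul (hTc'.mul hVc))
  have i3 : IntervalIntegrable (fun x => k ^ 2 * V x ^ 2) volume a b :=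
    (continuousOn_const.mul (hVc.pow 2)).intervalIntegrable
  have hmono : ∫ x in a..b, k ^ 2 * V x ^ 2 ≤
      ∫ x in a..b, (((k ^ 2 + T x ^ 2) * V x ^ 2 + 2 * (T x * V x) * g x) + g x ^ 2) :=
    intervalIntegral.integral_mono_on hab i3 ((i1.add i2).add hg2)
      fun x _ => by nlinarith [sq_nonneg (T x * V x + g x)]
  rw [intervalIntegral.integral_add (i1.add i2) hg2, key, zero_add,
    intervalIntegral.integral_const_mul] at hmono
  exact hmono

/-- **Wirtinger, Dirichlet form.** -/
theorem wirtinger_dirichlet {a b : ℝ} {V g : ℝ → ℝ} (hab : a < b)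
    (hg : IntervalIntegrable g volume a b)
    (hg2 : IntervalIntegrable (fun x => g x ^ 2) volume a b)
    (hV : ∀ x ∈ Icc a b, V x = V a + ∫ t in a..x, g t) (ha : V a = 0) (hb : V b = 0) :
    ∫ x in a..b, V x ^ 2 ≤ ((b - a) / Real.pi) ^ 2 * ∫ x in a..b, g x ^ 2 := by
  have hl : 0 < b - a := sub_pos.2 hab
  have hlim : Tendsto (fun k : ℝ => k ^ 2 * ∫ x in a..b, V x ^ 2) (𝓝[<] (Real.pi / (b - a)))
      (𝓝 ((Real.pi / (b - a)) ^ 2 * ∫ x in a..b, V x ^ 2)) :=
    (((continuous_pow 2).mul continuous_const).tendsto _).mono_left nhdsWithin_le_nhds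
  have hle : (Real.pi / (b - a)) ^ 2 * ∫ x in a..b, V x ^ 2 ≤ ∫ x in a..b, g x ^ 2 := by
    refine le_of_tendsto hlim ?_
    filter_upwards [self_mem_nhdsWithin,
      nhdsWithin_le_nhds (eventually_ge_nhds (div_pos Real.pi_pos hl))] with k hk hk0
    exact wirtinger_step hab.le hk0 ((lt_div_iff₀ hl).1 hk) hg hg2 hV ha hb
  have := mul_le_mul_of_nonneg_left hle (sq_nonneg ((b - a) / Real.pi))
  calc ∫ x in a..b, V x ^ 2
      = ((b - a) / Real.pi) ^ 2 * ((Real.pi / (b - a)) ^ 2 * ∫ x in a..b, V x ^ 2) := by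
        field_simp
    _ ≤ _ := this

/-- **Wirtinger, mean-zero (Neumann) form.** -/
theorem wirtinger_mean_zero {a b : ℝ} {u g : ℝ → ℝ} (hab : a < b)
    (hg : IntervalIntegrable g volume a b)
    (hg2 : IntervalIntegrable (fun x => g x ^ 2) volume a b)
    (hu : ∀ x ∈ Icc a b, u x = u a + ∫ t in a..x, g t) (hmean : ∫ x in a..b, u x = 0) :
    ∫ x in a..b, u x ^ 2 ≤ ((b - a) / Real.pi) ^ 2 * ∫ x in a..b, g x ^ 2 := by
  have huac := primitive_ac hab.le hg hu
  have huc : ContinuousOn u (uIcc a b) := huac.continuousOn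
  have hui : IntervalIntegrable u volume a b := huc.intervalIntegrable
  set W : ℝ → ℝ := fun x => ∫ t in a..x, u t with hW
  have hWa : W a = 0 := by simp [hW]
  have hWp : ∀ x ∈ Icc a b, W x = W a + ∫ t in a..x, u t := fun x _ => by rw [hWa, zero_add]
  have hWb : W b = 0 := hmean
  have hWac := primitive_ac hab.le hui hWp
  have hWc : ContinuousOn W (uIcc a b) := hWac.continuousOn
  have hD := wirtinger_dirichlet hab hui (huc.pow 2).intervalIntegrable hWp hWa hWb
  have key := hWac.integral_deriv_mul_eq_sub huac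
  simp only [hWa, hWb, zero_mul, sub_zero] at key
  have hae : ∀ᵐ x, x ∈ uIoc a b →
      deriv W x * u x + W x * deriv u x = u x ^ 2 + W x * g x := by
    filter_upwards [primitive_deriv hab.le hg hu, primitive_deriv hab.le hui hWp] with x h1 h2 hm
    rw [(h1 hm).deriv, (h2 hm).deriv]
    ring
  rw [intervalIntegral.integral_congr_ae hae] at key
  set lam : ℝ := ((b - a) / Real.pi) ^ 2 with hlam
  have hlpos : 0 < lam := pow_pos (div_pos (sub_pos.2 hab) Real.pi_pos) 2
  have i1 : IntervalIntegrable (fun x => 2 * u x ^ 2) volume a b :=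
    (continuousOn_const.mul (huc.pow 2)).intervalIntegrable
  have i2 : IntervalIntegrable (fun x => u x ^ 2 + W x * g x) volume a b :=
    (huc.pow 2).intervalIntegrable.add (hg.continuousOn_mul hWc)
  have i3 : IntervalIntegrable (fun x => lam⁻¹ * W x ^ 2) volume a b :=
    (continuousOn_const.mul (hWc.pow 2)).intervalIntegrable
  have i4 : IntervalIntegrable (fun x => lam * g x ^ 2) volume a b := hg2.const_mul lam
  have i5 : IntervalIntegrable (fun x => 2 * (u x ^ 2 + W x * g x)) volume a b := i2.const_mul 2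
  have hmono : ∫ x in a..b, 2 * u x ^ 2 ≤
      ∫ x in a..b, (2 * (u x ^ 2 + W x * g x) + (lam * g x ^ 2 + lam⁻¹ * W x ^ 2)) := by
    refine intervalIntegral.integral_mono_on hab.le i1 (i5.add (i4.add i3)) fun x _ => ?_
    have h0 : 0 ≤ lam⁻¹ * (lam * g x + W x) ^ 2 :=
      mul_nonneg (inv_nonneg.2 hlpos.le) (sq_nonneg _)
    have h1 : lam⁻¹ * (lam * g x + W x) ^ 2 =
        lam * g x ^ 2 + 2 * (g x * W x) + lam⁻¹ * W x ^ 2 := by field_simp; ring
    nlinarith
  rw [intervalIntegral.integral_add i5 (i4.add i3), intervalIntegral.integral_add i4 i3,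
    intervalIntegral.integral_const_mul, intervalIntegral.integral_const_mul,
    intervalIntegral.integral_const_mul, intervalIntegral.integral_const_mul, key, mul_zero,
    zero_add] at hmono
  have : lam⁻¹ * ∫ x in a..b, W x ^ 2 ≤ ∫ x in a..b, u x ^ 2 := by
    calc lam⁻¹ * ∫ x in a..b, W x ^ 2 ≤ lam⁻¹ * (lam * ∫ x in a..b, u x ^ 2) :=
          mul_le_mul_of_nonneg_left hD (inv_nonneg.2 hlpos.le)
      _ = _ := by field_simp
  linarith

end Vale.Agent.P128
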