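import Vale.Agent.P128.Spec
import Vale.Agent.P128.Basic

/-!
# P128: calculus on the arcs of a good circle
-/

open MeasureTheory Set Metric Filter
open scoped ENNReal Topology Real

noncomputable section

namespace Vale.Agent.P128.Circle

variable {K : Set ℂ} {u V : ℂ → ℝ} {x : ℂ} {r : ℝ}

/-- Cauchy-Schwarz on an interval. -/
theorem abs_integral_mul_le {f g : ℝ → ℝ} {a b : ℝ} (hab : a ≤ b)
    (hf : IntervalIntegrable (fun θ => f θ ^ 2) volume a b)
    (hg : IntervalIntegrable (fun θ => g θ ^ 2) volume a b)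
    (hfg : IntervalIntegrable (fun θ => f θ * g θ) volume a b) :
    |∫ θ in a..b, f θ * g θ| ≤
      Real.sqrt (∫ θ in a..b, f θ ^ 2) * Real.sqrt (∫ θ in a..b, g θ ^ 2) := by
  have key : ∀ s : ℝ, 0 ≤ (∫ θ in a..b, g θ ^ 2) * (s * s) +
      2 * (∫ θ in a..b, f θ * g θ) * s + ∫ θ in a..b, f θ ^ 2 := by
    intro s
    have h := intervalIntegral.integral_nonneg hab
      (f := fun θ => g θ ^ 2 * (s * s) + f θ * g θ * (2 * s) + f θ ^ 2) (μ := volume)
      fun θ _ => by nlinarith [sq_nonneg (g θ * s + f θ)]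
    rw [intervalIntegral.integral_add ((hg.mul_const _).add (hfg.mul_const _)) hf,
      intervalIntegral.integral_add (hg.mul_const _) (hfg.mul_const _),
      intervalIntegral.integral_mul_const, intervalIntegral.integral_mul_const] at h
    linarith
  have h0f : 0 ≤ ∫ θ in a..b, f θ ^ 2 :=
    intervalIntegral.integral_nonneg hab fun θ _ => sq_nonneg _
  have hd := discrim_le_zero key
  rw [discrim] at hd
  rw [← Real.sqrt_mul h0f, ← Real.sqrt_sq_eq_abs]
  exact Real.sqrt_le_sqrt (by nlinarith)

theorem deriv_circleMap_mul (θ : ℝ) :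
    circleMap 0 r θ * Complex.I = r • (Complex.exp (θ * Complex.I) * Complex.I) := by
  rw [circleMap_zero, Complex.real_smul]; ring

theorem differentiableAt_of_notMem (h : IsGM K u) {z : ℂ} (hz : z ∉ K) :
    DifferentiableAt ℝ u z :=
  ((h.contDiffOn 1).differentiableOn one_ne_zero z hz).differentiableAt
    (h.isOpen_compl.mem_nhds hz)

theorem hasDerivAt_u_circle (h : IsGM K u) {θ : ℝ} (hθ : circleMap x r θ ∉ K) :
    HasDerivAt (fun φ => u (circleMap x r φ)) (r * dT u x r θ) θ := by
  have h1 := (differentiableAt_of_notMem h hθ).hasFDerivAt.comp_hasDerivAt θ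
    (hasDerivAt_circleMap x r θ)
  rw [deriv_circleMap_mul, map_smul] at h1
  exact h1

theorem hasDerivAt_V_circle (hV : IsStream K u V) {θ : ℝ} (hθ : circleMap x r θ ∉ K) :
    HasDerivAt (fun φ => V (circleMap x r φ)) (r * dR u x r θ) θ := by
  have h1 := (hV.diff _ hθ).hasFDerivAt.comp_hasDerivAt θ (hasDerivAt_circleMap x r θ)
  rw [hV.fderiv_eq _ hθ, deriv_circleMap_mul,
    show -(Complex.I * (r • (Complex.exp (θ * Complex.I) * Complex.I))) =
      r • Complex.exp (θ * Complex.I) by
      rw [Complex.real_smul, Complex.real_smul]; ring_nf; rw [Complex.I_sq]; ring,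
    map_smul] at h1
  exact h1

theorem fderiv_apply_decomp (f : ℂ → ℝ) (z v : ℂ) :
    fderiv ℝ f z v = v.re * fderiv ℝ f z 1 + v.im * fderiv ℝ f z Complex.I := by
  have e : v.re • (1 : ℂ) + v.im • Complex.I = v := by
    simp [Complex.real_smul, Complex.re_add_im]
  conv_lhs => rw [← e, map_add, map_smul, map_smul, smul_eq_mul, smul_eq_mul]

theorem measurable_fderiv_circle (f : ℂ → ℝ) (v : ℝ → ℂ) (hv : Continuous v) :
    Measurable fun θ => fderiv ℝ f (circleMap x r θ) (v θ) := by
  simp only [fderiv_apply_decomp f _ (v _)]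
  exact (((Complex.continuous_re.comp hv).measurable).mul
    ((measurable_fderiv_apply_const ℝ f 1).comp (continuous_circleMap x r).measurable)).add
    (((Complex.continuous_im.comp hv).measurable).mul
    ((measurable_fderiv_apply_const ℝ f Complex.I).comp (continuous_circleMap x r).measurable))

theorem measurable_dT : Measurable (dT u x r) :=
  measurable_fderiv_circle u _ (by fun_prop)

theorem measurable_dR : Measurable (dR u x r) :=
  measurable_fderiv_circle u _ (by fun_prop)

theorem intervalIntegrable_of_sq {f : ℝ → ℝ} (hm : Measurable f) {a b : ℝ}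
    (h : IntervalIntegrable (fun θ => f θ ^ 2) volume a b) :
    IntervalIntegrable f volume a b := by
  refine IntervalIntegrable.mono_fun' (g := fun θ => 1 + f θ ^ 2)
    (intervalIntegrable_const.add h) hm.aestronglyMeasurable (Eventually.of_forall fun θ => ?_)
  simp only [Real.norm_eq_abs]
  nlinarith [sq_nonneg (|f θ| - 1), sq_abs (f θ)]

theorem intervalIntegrable_dT (hg : GoodRadius K u x r) (a b : ℝ) :
    IntervalIntegrable (fun θ => r * dT u x r θ) volume a b :=
  (intervalIntegrable_of_sq measurable_dT (hg.intT a b)).const_mul r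

theorem intervalIntegrable_dR (hg : GoodRadius K u x r) (a b : ℝ) :
    IntervalIntegrable (fun θ => r * dR u x r θ) volume a b :=
  (intervalIntegrable_of_sq measurable_dR (hg.intR a b)).const_mul r

theorem periodic_circle (f : ℂ → ℂ → ℝ) :
    Function.Periodic (fun θ : ℝ => f (circleMap x r θ) (Complex.exp (θ * Complex.I)))
      (2 * π) := by
  intro θ
  simp only [periodic_circleMap x r θ]
  congr 1
  push_cast
  rw [add_mul, Complex.exp_add]
  simp [Complex.exp_two_pi_mul_I]

theorem tauArc_nonneg (hr : 0 ≤ r) {a b : ℝ} (hab : a ≤ b) : 0 ≤ tauArc u x r a b :=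
  intervalIntegral.integral_nonneg hab fun θ _ => mul_nonneg hr (sq_nonneg _)

theorem rhoArc_nonneg (hr : 0 ≤ r) {a b : ℝ} (hab : a ≤ b) : 0 ≤ rhoArc u x r a b :=
  intervalIntegral.integral_nonneg hab fun θ _ => mul_nonneg hr (sq_nonneg _)

theorem tauArc_le_tauC (hg : GoodRadius K u x r) {a b : ℝ} (hab : a ≤ b)
    (hb : b ≤ a + 2 * π) : tauArc u x r a b ≤ tauC u x r := by
  have hper : Function.Periodic (fun θ => r * dT u x r θ ^ 2) (2 * π) := by
    intro θ
    exact congrArg (fun s => r * s ^ 2)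
      (periodic_circle (fun p e => fderiv ℝ u p (e * Complex.I)) θ)
  unfold tauArc tauC tauArc
  have h := hper.intervalIntegral_add_eq a 0
  rw [zero_add] at h
  rw [← h]
  refine intervalIntegral.integral_mono_interval le_rfl hab hb
    (Eventually.of_forall fun θ => mul_nonneg hg.pos.le (sq_nonneg _))
    ((hg.intT a (a + 2 * π)).const_mul r)

theorem integral_sq_mul (f : ℝ → ℝ) (a b : ℝ) :
    ∫ θ in a..b, (r * f θ) ^ 2 = r * ∫ θ in a..b, r * f θ ^ 2 := by
  rw [← intervalIntegral.integral_const_mul]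
  congr 1; funext θ; ring

/-- The oscillation bound along the circle. -/
theorem abs_integral_dT_le (hg : GoodRadius K u x r) {a b θ φ : ℝ} (hab : b ≤ a + 2 * π)
    (hθ : θ ∈ Icc a b) (hφ : φ ∈ Icc a b) :
    |∫ v in θ..φ, r * dT u x r v| ≤ Real.sqrt (2 * π * r * tauC u x r) := by
  wlog hle : θ ≤ φ generalizing θ φ
  · rw [intervalIntegral.integral_symm, abs_neg]
    exact this hφ hθ (not_le.1 hle).le
  have h := abs_integral_mul_le (f := fun _ => (1 : ℝ)) (g := fun v => r * dT u x r v) hle
    intervalIntegrable_const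
    (by simp only [mul_pow]; exact (hg.intT θ φ).const_mul _)
    (by simpa using intervalIntegrable_dT hg θ φ)
  simp only [one_mul, one_pow, integral_sq_mul (dT u x r)] at h
  have hone : ∫ _ in θ..φ, (1 : ℝ) = φ - θ := by simp
  rw [hone, ← Real.sqrt_mul (by linarith)] at h
  refine h.trans (Real.sqrt_le_sqrt ?_)
  have h1 : tauArc u x r θ φ ≤ tauC u x r :=
    tauArc_le_tauC hg hle (by linarith [hθ.1, hφ.2])
  have h0 : 0 ≤ tauArc u x r θ φ := tauArc_nonneg hg.pos.le hle
  calc (φ - θ) * (r * tauArc u x r θ φ) ≤ (2 * π) * (r * tauC u x r) :=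
        mul_le_mul (by linarith [hθ.1, hφ.2]) (mul_le_mul_of_nonneg_left h1 hg.pos.le)
          (mul_nonneg hg.pos.le h0) (by positivity)
    _ = 2 * π * r * tauC u x r := by ring

/-- The continuous extension of `u` to a closed arc. -/
def arcExt (u : ℂ → ℝ) (x : ℂ) (r a b θ : ℝ) : ℝ :=
  u (circleMap x r ((a + b) / 2)) + ∫ v in ((a + b) / 2)..θ, r * dT u x r v

theorem continuous_arcExt (hg : GoodRadius K u x r) (a b : ℝ) :
    Continuous (arcExt u x r a b) :=
  continuous_const.add (intervalIntegral.continuous_primitive (intervalIntegrable_dT hg) _)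

theorem arcExt_eq (h : IsGM K u) (hg : GoodRadius K u x r) {a b θ : ℝ}
    (hf : IsFreeArc K x r a b) (hθ : θ ∈ Ioo a b) :
    arcExt u x r a b θ = u (circleMap x r θ) := by
  have hm : (a + b) / 2 ∈ Ioo a b := ⟨by linarith [hf.1], by linarith [hf.1]⟩
  rw [arcExt, intervalIntegral.integral_eq_sub_of_hasDerivAt
    (f := fun φ => u (circleMap x r φ)) (fun v hv => hasDerivAt_u_circle h
      (hf.2.2 v (ordConnected_Ioo.uIcc_subset hm hθ hv))) (intervalIntegrable_dT hg _ _)]
  ring

theorem hasDerivAt_arcExt (h : IsGM K u) (hg : GoodRadius K u x r) {a b θ : ℝ}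
    (hf : IsFreeArc K x r a b) (hθ : θ ∈ Ioo a b) :
    HasDerivAt (arcExt u x r a b) (r * dT u x r θ) θ :=
  (hasDerivAt_u_circle h (hf.2.2 θ hθ)).congr_of_eventuallyEq
    (Filter.eventuallyEq_of_mem (Ioo_mem_nhds hθ.1 hθ.2) fun _ hv => arcExt_eq h hg hf hv)

/-- The angular mean of `u` on an arc. -/
def arcMean (u : ℂ → ℝ) (x : ℂ) (r a b : ℝ) : ℝ :=
  (∫ θ in a..b, arcExt u x r a b θ) / (b - a)

/-- The flux through an arc. -/
def arcFlux (u : ℂ → ℝ) (x : ℂ) (r a b : ℝ) : ℝ := ∫ θ in a..b, r * dR u x r θ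

theorem abs_arcExt_sub_mean (hg : GoodRadius K u x r) {a b θ : ℝ}
    (hf : IsFreeArc K x r a b) (hθ : θ ∈ Icc a b) :
    |arcExt u x r a b θ - arcMean u x r a b| ≤ Real.sqrt (2 * π * r * tauC u x r) := by
  set o := Real.sqrt (2 * π * r * tauC u x r)
  have hab : 0 < b - a := sub_pos.2 hf.1
  have hpt : ∀ φ ∈ Icc a b, |arcExt u x r a b θ - arcExt u x r a b φ| ≤ o := by
    intro φ hφ
    rw [arcExt, arcExt, add_sub_add_left_eq_sub,
      intervalIntegral.integral_interval_sub_left (intervalIntegrable_dT hg _ _)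
        (intervalIntegrable_dT hg _ _)]
    exact abs_integral_dT_le hg hf.2.1 hφ hθ
  have hW : IntervalIntegrable (arcExt u x r a b) volume a b :=
    (continuous_arcExt hg a b).intervalIntegrable a b
  have e : arcExt u x r a b θ - arcMean u x r a b =
      (∫ φ in a..b, (arcExt u x r a b θ - arcExt u x r a b φ)) / (b - a) := by
    rw [intervalIntegral.integral_sub intervalIntegrable_const hW, arcMean]
    simp only [intervalIntegral.integral_const, smul_eq_mul]
    field_simp
  rw [e, abs_div, abs_of_pos hab, div_le_iff₀ hab]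
  have := intervalIntegral.norm_integral_le_of_norm_le_const (a := a) (b := b) (C := o)
    (f := fun φ => arcExt u x r a b θ - arcExt u x r a b φ) (fun φ hφ => by
      rw [uIoc_of_le hf.1.le] at hφ
      exact hpt φ ⟨hφ.1.le, hφ.2⟩)
  rwa [Real.norm_eq_abs, abs_of_pos hab] at this

theorem abs_u_sub_mean (h : IsGM K u) (hg : GoodRadius K u x r) {a b θ : ℝ}
    (hf : IsFreeArc K x r a b) (hθ : θ ∈ Ioo a b) :
    |u (circleMap x r θ) - arcMean u x r a b| ≤ Real.sqrt (2 * π * r * tauC u x r) := by
  rw [← arcExt_eq h hg hf hθ]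
  exact abs_arcExt_sub_mean hg hf (Ioo_subset_Icc_self hθ)

theorem arcFlux_eq (hg : GoodRadius K u x r) (hV : IsStream K u V) {a b : ℝ}
    (hf : IsFreeArc K x r a b) :
    arcFlux u x r a b = V (circleMap x r b) - V (circleMap x r a) :=
  intervalIntegral.integral_eq_sub_of_hasDerivAt_of_le hf.1.le
    ((hV.cont.comp (continuous_circleMap x r)).continuousOn)
    (fun θ hθ => hasDerivAt_V_circle hV (hf.2.2 θ hθ)) (intervalIntegrable_dR hg a b)

theorem abs_arcFlux_le (hg : GoodRadius K u x r) (hV : IsStream K u V) {t : ℕ → ℝ} {m j : ℕ}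
    (ht : IsPartition K x r t m) (hj : j < m) {M : ℝ}
    (hM : ∀ p ∈ K, ∀ q ∈ K, |V p - V q| ≤ M) :
    |arcFlux u x r (t j) (t (j + 1))| ≤ M := by
  rw [arcFlux_eq hg hV (ht.2.2 j hj).1]
  refine hM _ ?_ _ (ht.2.2 j hj).2
  rcases lt_or_eq_of_le (Nat.succ_le_of_lt hj) with h | h
  · exact (ht.2.2 (j + 1) h).2
  · rw [show j + 1 = m from h, ht.2.1, periodic_circleMap x r (t 0)]
    exact (ht.2.2 0 ht.1).2

/-- A function of `u` on an arc can be computed with the continuous extension. -/
theorem integral_comp_eq (h : IsGM K u) (hg : GoodRadius K u x r) {a b : ℝ}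
    (hf : IsFreeArc K x r a b) (g : ℝ → ℝ) :
    ∫ θ in a..b, g (u (circleMap x r θ)) * (r * dR u x r θ) =
      ∫ θ in a..b, g (arcExt u x r a b θ) * (r * dR u x r θ) := by
  refine intervalIntegral.integral_congr_ae ?_
  have : ∀ᵐ θ : ℝ, θ ≠ b := by simp [ae_iff]
  filter_upwards [this] with θ hb hθ
  rw [uIoc_of_le hf.1.le] at hθ
  rw [arcExt_eq h hg hf ⟨hθ.1, lt_of_le_of_ne hθ.2 hb⟩]

/-- Wirtinger on one arc: the fluctuating part costs at most `r (b-a)/π √(τ ρ)`. -/
theorem integral_arc_le (hW : WirtingerSpec) (h : IsGM K u) (hg : GoodRadius K u x r) {a b : ℝ}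
    (hf : IsFreeArc K x r a b) :
    ∫ θ in a..b, u (circleMap x r θ) * (r * dR u x r θ) ≤
      r * ((b - a) / π * Real.sqrt (tauArc u x r a b * rhoArc u x r a b)) +
        arcMean u x r a b * arcFlux u x r a b := by
  have hab : 0 < b - a := sub_pos.2 hf.1
  have hr := hg.pos
  set c := arcMean u x r a b with hc
  set W := fun θ => arcExt u x r a b θ - c
  have hWc : Continuous W := (continuous_arcExt hg a b).sub continuous_const
  have hder : ∀ θ ∈ Ioo a b, HasDerivAt W (r * dT u x r θ) θ := fun θ hθ =>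
    (hasDerivAt_arcExt h hg hf hθ).sub_const c
  have hT : IntervalIntegrable (fun θ => (r * dT u x r θ) ^ 2) volume a b := by
    simp only [mul_pow]; exact (hg.intT a b).const_mul _
  have hR : IntervalIntegrable (fun θ => (r * dR u x r θ) ^ 2) volume a b := by
    simp only [mul_pow]; exact (hg.intR a b).const_mul _
  have hmean : ∫ θ in a..b, W θ = 0 := by
    rw [intervalIntegral.integral_sub ((continuous_arcExt hg a b).intervalIntegrable a b)
      intervalIntegrable_const, hc, arcMean]
    simp only [intervalIntegral.integral_const, smul_eq_mul]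
    field_simp
    ring
  have hw := (hW a b W _ hf.1 hWc.continuousOn hder hT).1 (Or.inr hmean)
  rw [integral_sq_mul (dT u x r)] at hw
  have hmul : IntervalIntegrable (fun θ => W θ * (r * dR u x r θ)) volume a b :=
    (intervalIntegrable_dR hg a b).continuousOn_mul hWc.continuousOn
  have hcs := abs_integral_mul_le (f := W) (g := fun θ => r * dR u x r θ) hf.1.le
    ((hWc.pow 2).intervalIntegrable a b) hR hmul
  rw [integral_sq_mul (dR u x r)] at hcs
  have e : ∫ θ in a..b, u (circleMap x r θ) * (r * dR u x r θ) =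
      (∫ θ in a..b, W θ * (r * dR u x r θ)) + c * arcFlux u x r a b := by
    rw [integral_comp_eq h hg hf (fun s => s), arcFlux, ← intervalIntegral.integral_const_mul,
      ← intervalIntegral.integral_add hmul ((intervalIntegrable_dR hg a b).const_mul c)]
    congr 1; funext θ; simp only [W]; ring
  rw [e]
  gcongr
  refine (le_abs_self _).trans (hcs.trans ?_)
  have hτ := tauArc_nonneg (u := u) (x := x) hr.le hf.1.le
  have hρ := rhoArc_nonneg (u := u) (x := x) hr.le hf.1.le
  calc Real.sqrt (∫ θ in a..b, W θ ^ 2) * Real.sqrt (r * rhoArc u x r a b)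
      ≤ Real.sqrt (((b - a) / π) ^ 2 * (r * tauArc u x r a b)) *
          Real.sqrt (r * rhoArc u x r a b) :=
        mul_le_mul_of_nonneg_right (Real.sqrt_le_sqrt hw) (Real.sqrt_nonneg _)
    _ = r * ((b - a) / π * Real.sqrt (tauArc u x r a b * rhoArc u x r a b)) := by
        rw [Real.sqrt_mul (sq_nonneg _), Real.sqrt_sq (by positivity), Real.sqrt_mul hr.le,
          Real.sqrt_mul hr.le, Real.sqrt_mul hτ]
        have hs := Real.mul_self_sqrt hr.le
        linear_combination ((b - a) / π * Real.sqrt (tauArc u x r a b) *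
          Real.sqrt (rhoArc u x r a b)) * hs

end Vale.Agent.P128.Circle
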