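import Mathlib

/-!
# P128: trapezoid cut-offs and their primitives
-/

open MeasureTheory Set Metric Filter
open scoped Topology Real

noncomputable section

namespace Vale.Agent.P128.Circle

/-- Equal to `1` on `[p + d, q - d]`, to `0` outside `(p, q)`, linear in between. -/
def trap (p q d s : ℝ) : ℝ := max 0 (min 1 (min ((s - p) / d) ((q - s) / d)))

theorem trap_nonneg (p q d s : ℝ) : 0 ≤ trap p q d s := le_max_left _ _

theorem trap_le_one (p q d s : ℝ) : trap p q d s ≤ 1 :=
  max_le zero_le_one (min_le_left _ _)

theorem continuous_trap (p q d : ℝ) : Continuous (trap p q d) := by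
  unfold trap; fun_prop

theorem trap_eq_zero {p q d s : ℝ} (hd : 0 < d) (h : s ≤ p ∨ q ≤ s) : trap p q d s = 0 := by
  refine max_eq_left ((min_le_right _ _).trans ?_)
  rcases h with h | h
  · exact (min_le_left _ _).trans (div_nonpos_of_nonpos_of_nonneg (by linarith) hd.le)
  · exact (min_le_right _ _).trans (div_nonpos_of_nonpos_of_nonneg (by linarith) hd.le)

theorem trap_eq_one {p q d s : ℝ} (hd : 0 < d) (h1 : p + d ≤ s) (h2 : s ≤ q - d) :
    trap p q d s = 1 := by
  unfold trap
  rw [min_eq_left (le_min ((le_div_iff₀ hd).2 (by linarith)) ((le_div_iff₀ hd).2 (by linarith)))]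
  exact max_eq_right zero_le_one

/-- The primitive of `trap p q d` vanishing at `c`. -/
def trapInt (p q d c s : ℝ) : ℝ := ∫ v in c..s, trap p q d v

theorem hasDerivAt_trapInt (p q d c s : ℝ) :
    HasDerivAt (trapInt p q d c) (trap p q d s) s :=
  ((continuous_trap p q d).integral_hasStrictDerivAt c s).hasDerivAt

theorem deriv_trapInt (p q d c : ℝ) : deriv (trapInt p q d c) = trap p q d :=
  funext fun s => (hasDerivAt_trapInt p q d c s).deriv

theorem contDiff_trapInt (p q d c : ℝ) : ContDiff ℝ 1 (trapInt p q d c) := by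
  rw [contDiff_one_iff_deriv]
  exact ⟨fun s => (hasDerivAt_trapInt p q d c s).differentiableAt,
    by rw [deriv_trapInt]; exact continuous_trap p q d⟩

theorem abs_trapInt_le {p q d : ℝ} (hd : 0 < d) (hpq : p ≤ q) (c s : ℝ) :
    |trapInt p q d c s| ≤ q - p := by
  have hi : Integrable ((Icc p q).indicator fun _ : ℝ => (1 : ℝ)) :=
    (integrableOn_const (C := (1 : ℝ)) measure_Icc_lt_top.ne).integrable_indicator measurableSet_Icc
  unfold trapInt
  rw [← Real.norm_eq_abs, intervalIntegral.norm_integral_eq_norm_integral_uIoc]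
  refine (norm_integral_le_integral_norm _).trans ?_
  calc ∫ v in uIoc c s, ‖trap p q d v‖
      ≤ ∫ v in uIoc c s, (Icc p q).indicator (fun _ => (1 : ℝ)) v := by
        refine integral_mono_of_nonneg (Eventually.of_forall fun v => norm_nonneg _)
          hi.integrableOn (Eventually.of_forall fun v => ?_)
        simp only [Real.norm_eq_abs, abs_of_nonneg (trap_nonneg _ _ _ _)]
        by_cases hv : v ∈ Icc p q
        · rw [indicator_of_mem hv]; exact trap_le_one _ _ _ _
        · rw [indicator_of_notMem hv, trap_eq_zero hd]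
          rcases not_and_or.1 hv with h | h
          · exact Or.inl (le_of_lt (not_le.1 h))
          · exact Or.inr (le_of_lt (not_le.1 h))
    _ ≤ ∫ v, (Icc p q).indicator (fun _ => (1 : ℝ)) v :=
        setIntegral_le_integral hi (Eventually.of_forall fun v =>
          indicator_nonneg (fun _ _ => zero_le_one) v)
    _ = q - p := by rw [integral_indicator_const _ measurableSet_Icc]; simp [hpq]

/-- `trapInt` is the identity where the trapezoid equals one. -/
theorem trapInt_eq_self {p q d s : ℝ} (hd : 0 < d) (h0 : 0 ∈ Icc (p + d) (q - d))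
    (hs : s ∈ Icc (p + d) (q - d)) : trapInt p q d 0 s = s := by
  have : ∀ v ∈ uIcc 0 s, trap p q d v = 1 := fun v hv =>
    trap_eq_one hd (uIcc_subset_Icc h0 hs hv).1 (uIcc_subset_Icc h0 hs hv).2
  rw [trapInt, intervalIntegral.integral_congr (g := fun _ => (1 : ℝ)) this]
  simp

theorem trapInt_of_le {p q d s : ℝ} (hd : 0 < d) (hs : s ≤ p) : trapInt p q d p s = 0 := by
  have : ∀ v ∈ uIcc p s, trap p q d v = 0 := fun v hv => by
    rw [uIcc_of_ge hs] at hv
    exact trap_eq_zero hd (Or.inl hv.2)
  rw [trapInt, intervalIntegral.integral_congr (g := fun _ => (0 : ℝ)) this]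
  simp

theorem trapInt_of_ge {p q d s : ℝ} (hd : 0 < d) (hs : q ≤ s) :
    trapInt p q d p s = trapInt p q d p q := by
  have hc := continuous_trap p q d
  have : ∫ v in q..s, trap p q d v = 0 := by
    rw [intervalIntegral.integral_congr (g := fun _ => (0 : ℝ)) fun v hv => by
      rw [uIcc_of_le hs] at hv
      exact trap_eq_zero hd (Or.inr hv.1)]
    simp
  rw [trapInt, trapInt, ← intervalIntegral.integral_add_adjacent_intervals
    (hc.intervalIntegrable p q) (hc.intervalIntegrable q s), this, add_zero]

theorem trapInt_le {p q d : ℝ} (hpq : p ≤ q) : trapInt p q d p q ≤ q - p := by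
  calc trapInt p q d p q ≤ ∫ _ in p..q, (1 : ℝ) :=
        intervalIntegral.integral_mono_on hpq ((continuous_trap p q d).intervalIntegrable p q)
          intervalIntegrable_const fun v _ => trap_le_one _ _ _ _
    _ = q - p := by simp

theorem le_trapInt {p q d : ℝ} (hd : 0 < d) (h2 : 2 * d ≤ q - p) :
    q - p - 2 * d ≤ trapInt p q d p q := by
  have hc := continuous_trap p q d
  have hm : ∫ v in (p + d)..(q - d), trap p q d v = q - d - (p + d) := by
    rw [intervalIntegral.integral_congr (g := fun _ => (1 : ℝ)) fun v hv => by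
      rw [uIcc_of_le (by linarith)] at hv
      exact trap_eq_one hd hv.1 hv.2]
    simp
  have hl : 0 ≤ ∫ v in p..(p + d), trap p q d v :=
    intervalIntegral.integral_nonneg (by linarith) fun v _ => trap_nonneg _ _ _ _
  have hr : 0 ≤ ∫ v in (q - d)..q, trap p q d v :=
    intervalIntegral.integral_nonneg (by linarith) fun v _ => trap_nonneg _ _ _ _
  rw [trapInt, ← intervalIntegral.integral_add_adjacent_intervals
    (hc.intervalIntegrable p (q - d)) (hc.intervalIntegrable _ q),
    ← intervalIntegral.integral_add_adjacent_intervals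
    (hc.intervalIntegrable p (p + d)) (hc.intervalIntegrable _ (q - d)), hm]
  linarith

end Vale.Agent.P128.Circle
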