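import Vale.Agent.P128.Circle.Interface
import Vale.Agent.P128.Circle.Trap
import Vale.Agent.P128.Circle.Arcs

/-!
# P128: the gap lemma `F w³ ≤ C r²`
-/

open MeasureTheory Set Metric Filter
open scoped ENNReal Topology Real

noncomputable section

namespace Vale.Agent.P128.Circle

variable {K : Set ℂ} {u : ℂ → ℝ} {x : ℂ} {r : ℝ} {t : ℕ → ℝ} {m : ℕ} {U : ℕ → Set ℂ}

theorem measurable_gradSq (f : ℂ → ℝ) : Measurable (gradSq f) :=
  ((measurable_fderiv_apply_const ℝ f 1).pow_const 2).add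
    ((measurable_fderiv_apply_const ℝ f Complex.I).pow_const 2)

theorem integrableOn_gradSq (h : IsGM K u) (x : ℂ) (r : ℝ) :
    IntegrableOn (gradSq u) (ball x r \ K) := by
  refine ⟨(measurable_gradSq u).aestronglyMeasurable, ?_⟩
  rw [hasFiniteIntegral_iff_ofReal (Eventually.of_forall fun z => gradSq_nonneg u z)]
  exact h.dirichlet_lt_top x r

theorem dir_eq_integral (h : IsGM K u) (x : ℂ) (r : ℝ) :
    dir K u x r = ∫ z in ball x r \ K, gradSq u z := by
  rw [integral_eq_lintegral_of_nonneg_ae (Eventually.of_forall fun z => gradSq_nonneg u z)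
    (integrableOn_gradSq h x r).1]
  rfl

theorem integrableOn_comp (h : IsGM K u) {A : Set ℂ} (hA : MeasurableSet A)
    (hsub : A ⊆ ball x r \ K) {f : ℝ → ℝ} (hf : Continuous f) (hb : ∀ s, |f s| ≤ 1) :
    IntegrableOn (fun z => f (u z) * gradSq u z) A := by
  refine Integrable.mono' ((integrableOn_gradSq h x r).mono_set hsub)
    (((hf.comp_continuousOn (h.continuousOn.mono fun z hz => (hsub hz).2)).aestronglyMeasurable
      hA).mul (measurable_gradSq u).aestronglyMeasurable) (Eventually.of_forall fun z => ?_)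
  rw [Real.norm_eq_abs, abs_mul, abs_of_nonneg (gradSq_nonneg u z)]
  exact mul_le_of_le_one_left (gradSq_nonneg u z) (hb _)

theorem abs_trap_le (p q d s : ℝ) : |trap p q d s| ≤ 1 := by
  rw [abs_of_nonneg (trap_nonneg p q d s)]; exact trap_le_one p q d s

theorem exists_arc {z : ℂ} (hr : 0 < r) (ht : IsPartition K x r t m) (hz : z ∈ sphere x r)
    (hK : z ∉ K) : ∃ j < m, ∃ θ ∈ Ioo (t j) (t (j + 1)), circleMap x r θ = z := by
  have hz' : z ∈ range (circleMap x r) := by rw [range_circleMap, abs_of_pos hr]; exact hz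
  obtain ⟨θ₀, rfl⟩ := hz'
  set θ := toIcoMod Real.two_pi_pos (t 0) θ₀ with hθ
  have he : circleMap x r θ = circleMap x r θ₀ := by
    rw [hθ, toIcoMod]
    exact (periodic_circleMap x r).sub_zsmul_eq _
  have hI : θ ∈ Ico (t 0) (t m) := by rw [ht.2.1]; exact toIcoMod_mem_Ico _ _ _
  classical
  have hex : ∃ j, θ < t j := ⟨m, hI.2⟩
  have hle : Nat.find hex ≤ m := Nat.find_min' hex hI.2
  obtain ⟨j, hj⟩ : ∃ j, Nat.find hex = j + 1 := Nat.exists_eq_add_one.2 (by
    by_contra h0
    have h1 := Nat.find_spec hex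
    rw [show Nat.find hex = 0 by omega] at h1
    exact not_lt.2 hI.1 h1)
  have hjm : j < m := by omega
  have h1 : θ < t (j + 1) := hj ▸ Nat.find_spec hex
  have h2 : t j ≤ θ := not_lt.1 (Nat.find_min hex (by omega))
  refine ⟨j, hjm, θ, ⟨lt_of_le_of_ne h2 fun he' => ?_, h1⟩, he⟩
  exact hK (he ▸ he' ▸ (ht.2.2 j hjm).2)

theorem exists_le_of_lintegral_le {g : ℝ → ℝ≥0∞} {p q A : ℝ} (hA : 0 < A) (hpq : p < q)
    (h : ∫⁻ c, g c ≤ ENNReal.ofReal A) :
    ∃ s ∈ Ioo p q, g s ≤ ENNReal.ofReal (2 * A / (q - p)) := by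
  by_contra hcon
  simp only [not_exists, not_and, not_le] at hcon
  have hd : 0 < q - p := sub_pos.2 hpq
  have h1 : ∫⁻ _ in Ioo p q, ENNReal.ofReal (2 * A / (q - p)) ≤ ENNReal.ofReal A :=
    ((setLIntegral_mono' measurableSet_Ioo fun c hc => (hcon c hc).le).trans
      (setLIntegral_le_lintegral _ _)).trans h
  rw [setLIntegral_const, Real.volume_Ioo, ← ENNReal.ofReal_mul (by positivity),
    ENNReal.ofReal_le_ofReal_iff hA.le, div_mul_cancel₀ _ hd.ne'] at h1
  linarith

theorem lintegral_sqrt_le {f : ℂ → ℝ} (hm : Measurable f) (h0 : ∀ z, 0 ≤ f z) {W : Set ℂ}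
    (hr : 0 < r) (hW : W ⊆ ball x r) (hi : IntegrableOn f W) {E : ℝ} (hE : 0 < E)
    (hle : ∫ z in W, f z ≤ E) :
    ∫⁻ z in W, ENNReal.ofReal (Real.sqrt (f z)) ≤
      ENNReal.ofReal (Real.sqrt (π * r ^ 2 * E)) := by
  set s := Real.sqrt (E / (π * r ^ 2)) with hs
  have hs0 : 0 < s := Real.sqrt_pos.2 (by positivity)
  have hvol : volume W ≤ ENNReal.ofReal (π * r ^ 2) := by
    refine (measure_mono hW).trans (le_of_eq ?_)
    rw [Complex.volume_ball, ← ENNReal.ofReal_pow hr.le, mul_comm π,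
      ENNReal.ofReal_mul (sq_nonneg r)]
    congr 1
    rw [← ENNReal.ofReal_coe_nnreal, NNReal.coe_real_pi]
  have hfin : IsFiniteMeasure (volume.restrict W) :=
    ⟨by rw [Measure.restrict_apply_univ]; exact hvol.trans_lt ENNReal.ofReal_lt_top⟩
  have hsq : Integrable (fun z => s / 2 + f z / (2 * s)) (volume.restrict W) :=
    (integrable_const _).add (hi.div_const _)
  have hint : ∫ z in W, (s / 2 + f z / (2 * s)) ≤ Real.sqrt (π * r ^ 2 * E) := by
    rw [integral_add (integrable_const _) (hi.div_const _), setIntegral_const, integral_div,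
      smul_eq_mul]
    have hv : volume.real W ≤ π * r ^ 2 :=
      ENNReal.toReal_le_of_le_ofReal (by positivity) hvol
    have hk : s * s = E / (π * r ^ 2) := Real.mul_self_sqrt (by positivity)
    have hS : Real.sqrt (π * r ^ 2 * E) = π * r ^ 2 * s := by
      rw [← Real.sqrt_sq (show 0 ≤ π * r ^ 2 * s by positivity)]
      congr 1
      rw [mul_pow, sq s, hk]; field_simp
    have hE' : E / (2 * s) = π * r ^ 2 * s / 2 := by
      rw [eq_div_iff (two_ne_zero' ℝ), div_mul_eq_mul_div, div_eq_iff (by positivity)]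
      have : E = π * r ^ 2 * (s * s) := by rw [hk]; field_simp
      linear_combination 2 * this
    calc volume.real W * (s / 2) + (∫ z in W, f z) / (2 * s)
        ≤ π * r ^ 2 * (s / 2) + E / (2 * s) := by gcongr
      _ = Real.sqrt (π * r ^ 2 * E) := by rw [hS, hE']; ring
  refine le_trans (lintegral_mono fun z => ENNReal.ofReal_le_ofReal ?_) ?_ (b := ∫⁻ z in W,
    ENNReal.ofReal (s / 2 + f z / (2 * s)))
  · have h2 := Real.mul_self_sqrt (h0 z)
    rw [div_add_div _ _ (two_ne_zero' ℝ) (by positivity), le_div_iff₀ (by positivity)]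
    nlinarith [sq_nonneg (Real.sqrt (f z) - s)]
  · rw [← ofReal_integral_eq_lintegral_ofReal hsq
      (Eventually.of_forall fun z => add_nonneg (by positivity) (div_nonneg (h0 z)
        (by positivity)))]
    exact ENNReal.ofReal_le_ofReal hint

open Classical in
/-- The sum of the fluxes of the arcs of `U i` lying above a value-free interval `(a, b)` is
bounded by a multiple of `r² / (b - a)³`. -/
theorem gap_bound (hCut : CutFor K u) {C₀ : ℝ} (hC₀ : 0 ≤ C₀)
    (hco : ∀ (W : Set ℂ) (f : ℂ → ℝ), IsOpen W → ContDiffOn ℝ 1 f W →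
      ∃ g : ℝ → ℝ≥0∞, Measurable g ∧ (∀ c, μH[1] (W ∩ f ⁻¹' {c}) ≤ g c) ∧
        ∫⁻ c, g c ≤ ENNReal.ofReal C₀ * ∫⁻ z in W, ENNReal.ofReal (Real.sqrt (gradSq f z)))
    (hgm : IsGM K u) (hg : GoodRadius K u x r) (ht : IsPartition K x r t m)
    (hU : ArcComps K x r t m U) (hI : FluxIdentity u x r t m U) {i : ℕ} (hi : i < m)
    {a b : ℝ} (hab : a < b) (up : ℕ → Prop)
    (hup : ∀ j ∈ arcsOf U m i, ∀ θ ∈ Ioo (t j) (t (j + 1)),
      (up j → b ≤ u (circleMap x r θ)) ∧ (¬ up j → u (circleMap x r θ) ≤ a)) :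
    ∀ F : ℝ, F = ∑ j ∈ (arcsOf U m i).filter up, arcFlux u x r (t j) (t (j + 1)) → 0 < F →
      F * (b - a) ^ 3 ≤ 82944 * π * (C₀ + 1) ^ 2 * r ^ 2 := by
  intro F hF hFpos
  have hr := hg.pos
  set w := b - a with hw
  have hw0 : 0 < w := sub_pos.2 hab
  have hUo := hU.isOpen i hi
  have hUs := hU.subset i hi
  -- the identity for a trapezoid supported in `(a, b)`
  have key : ∀ p q d : ℝ, 0 < d → a ≤ p → p ≤ q → q ≤ b →
      ∫ z in U i, trap p q d (u z) * gradSq u z = trapInt p q d p q * F := by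
    intro p q d hd hap hpq hqb
    have h1 := hI i hi (trapInt p q d p) (contDiff_trapInt p q d p)
      ⟨max (q - p) 1, fun s => ⟨(abs_trapInt_le hd hpq p s).trans (le_max_left _ _), by
        rw [deriv_trapInt]; exact (abs_trap_le p q d s).trans (le_max_right _ _)⟩⟩
    rw [deriv_trapInt] at h1
    rw [h1, hF, Finset.mul_sum, Finset.sum_filter]
    refine Finset.sum_congr rfl fun j hj => ?_
    have hjm : j < m := by
      simp only [arcsOf, Finset.mem_filter, Finset.mem_range] at hj; exact hj.1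
    have hlt := (ht.2.2 j hjm).1.1
    have hne : ∀ᵐ θ : ℝ, θ ≠ t (j + 1) := by simp [ae_iff]
    rw [arcFlux, ← intervalIntegral.integral_const_mul]
    split_ifs with hu
    · refine intervalIntegral.integral_congr_ae ?_
      filter_upwards [hne] with θ hb hθ
      rw [uIoc_of_le hlt.le] at hθ
      rw [trapInt_of_ge hd
        (hqb.trans ((hup j hj θ ⟨hθ.1, lt_of_le_of_ne hθ.2 hb⟩).1 hu))]
    · rw [intervalIntegral.integral_congr_ae (g := fun _ => (0 : ℝ)) ?_]
      · simp
      filter_upwards [hne] with θ hb hθ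
      rw [uIoc_of_le hlt.le] at hθ
      rw [trapInt_of_le hd
        (((hup j hj θ ⟨hθ.1, lt_of_le_of_ne hθ.2 hb⟩).2 hu).trans hap)]
      ring
  have hint : ∀ p q d : ℝ, IntegrableOn (fun z => trap p q d (u z) * gradSq u z) (U i) :=
    fun p q d => integrableOn_comp hgm hUo.measurableSet hUs (continuous_trap p q d)
      (abs_trap_le p q d)
  have hnn : ∀ p q d : ℝ, ∀ z, 0 ≤ trap p q d (u z) * gradSq u z := fun p q d z =>
    mul_nonneg (trap_nonneg _ _ _ _) (gradSq_nonneg _ _)
  -- the band `W`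
  set W := U i ∩ u ⁻¹' Ioo (a + w / 4) (b - w / 4) with hWdef
  have hcU : ContinuousOn u (U i) := hgm.continuousOn.mono fun z hz => (hUs hz).2
  have hWo : IsOpen W := hcU.isOpen_inter_preimage hUo isOpen_Ioo
  have hWs : W ⊆ ball x r \ K := fun z hz => hUs hz.1
  have hWi : IntegrableOn (gradSq u) W := (integrableOn_gradSq hgm x r).mono_set hWs
  have hWE : ∫ z in W, gradSq u z ≤ F * w := by
    calc ∫ z in W, gradSq u z = ∫ z in W, trap a b (w / 4) (u z) * gradSq u z := by
          refine setIntegral_congr_fun hWo.measurableSet fun z hz => ?_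
          simp only [trap_eq_one (show 0 < w / 4 by positivity) hz.2.1.le hz.2.2.le, one_mul]
      _ ≤ ∫ z in U i, trap a b (w / 4) (u z) * gradSq u z :=
          setIntegral_mono_set (hint _ _ _) (Eventually.of_forall (hnn _ _ _))
            (HasSubset.Subset.eventuallyLE inter_subset_left)
      _ = trapInt a b (w / 4) a b * F := key _ _ _ (by positivity) le_rfl hab.le le_rfl
      _ ≤ F * w := by
          rw [mul_comm F]
          exact mul_le_mul_of_nonneg_right (trapInt_le hab.le) hFpos.le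
  obtain ⟨g, -, hgle, hgint⟩ := hco W u hWo ((hgm.contDiffOn 1).mono fun z hz => (hWs hz).2)
  set A := (C₀ + 1) * Real.sqrt (π * r ^ 2 * (F * w)) with hA
  have hA0 : 0 < A := by positivity
  have hgA : ∫⁻ c, g c ≤ ENNReal.ofReal A := by
    refine hgint.trans ?_
    rw [hA, ENNReal.ofReal_mul (by linarith)]
    exact mul_le_mul' (ENNReal.ofReal_le_ofReal (by linarith))
      (lintegral_sqrt_le (measurable_gradSq u) (gradSq_nonneg u) hr (fun z hz => (hWs hz).1)
        hWi (by positivity) hWE)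
  obtain ⟨s₁, hs₁, hg₁⟩ := exists_le_of_lintegral_le (p := a + w / 4) (q := a + 5 * w / 12)
    hA0 (by linarith) hgA
  obtain ⟨s₂, hs₂, hg₂⟩ := exists_le_of_lintegral_le (p := b - 5 * w / 12) (q := b - w / 4)
    hA0 (by linarith) hgA
  have he : 2 * A / (a + 5 * w / 12 - (a + w / 4)) = 12 * A / w := by
    rw [show a + 5 * w / 12 - (a + w / 4) = w / 6 by ring]; field_simp; ring
  have he' : 2 * A / (b - w / 4 - (b - 5 * w / 12)) = 12 * A / w := by
    rw [show b - w / 4 - (b - 5 * w / 12) = w / 6 by ring]; field_simp; ring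
  rw [he] at hg₁; rw [he'] at hg₂
  have h12 : w / 6 ≤ s₂ - s₁ := by
    have := hs₁.2; have := hs₂.1; linarith
  have hs : s₁ < s₂ := by linarith
  -- the competitor: cut out `A₀`
  set A₀ := U i ∩ u ⁻¹' Ioo s₁ s₂ with hA₀
  have hA₀o : IsOpen A₀ := hcU.isOpen_inter_preimage hUo isOpen_Ioo
  have hA₀s : A₀ ⊆ ball x r \ K := fun z hz => hUs hz.1
  have hbd : Bornology.IsBounded A₀ := isBounded_ball.subset fun z hz => (hA₀s hz).1
  have hfront : frontier A₀ \ K ⊆ (W ∩ u ⁻¹' {s₁}) ∪ (W ∩ u ⁻¹' {s₂}) := by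
    rintro z ⟨hz, hzK⟩
    rw [hA₀o.frontier_eq] at hz
    obtain ⟨hzc, hzn⟩ := hz
    have hzcl : z ∈ closedBall x r := closure_ball_subset_closedBall
      (closure_mono (fun y hy => (hA₀s hy).1) hzc)
    have hne : (𝓝[A₀] z).NeBot := mem_closure_iff_nhdsWithin_neBot.1 hzc
    have hcont : ContinuousAt u z :=
      hgm.continuousOn.continuousAt (hgm.isOpen_compl.mem_nhds hzK)
    have hzu : u z ∈ Icc s₁ s₂ := isClosed_Icc.mem_of_tendsto (b := 𝓝[A₀] z)
      (hcont.tendsto.mono_left nhdsWithin_le_nhds)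
      (eventually_nhdsWithin_of_forall fun y (hy : y ∈ A₀) => Ioo_subset_Icc_self hy.2)
    have hzab : u z ∈ Ioo (a + w / 4) (b - w / 4) :=
      ⟨lt_of_lt_of_le hs₁.1 hzu.1, lt_of_le_of_lt hzu.2 hs₂.2⟩
    rcases lt_or_eq_of_le (mem_closedBall.1 hzcl) with hb | hb
    · have hzU : z ∈ U i := by
        rcases hU.relClosed i hi ⟨closure_mono inter_subset_left hzc, hb⟩ with h' | h'
        exacts [h', absurd h' hzK]
      have hzo : u z ∉ Ioo s₁ s₂ := fun h' => hzn ⟨hzU, h'⟩
      rcases eq_or_lt_of_le hzu.1 with h' | h'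
      · exact Or.inl ⟨⟨hzU, hzab⟩, h'.symm⟩
      rcases eq_or_lt_of_le hzu.2 with h'' | h''
      · exact Or.inr ⟨⟨hzU, hzab⟩, h''⟩
      exact absurd ⟨h', h''⟩ hzo
    · obtain ⟨j, hj, θ, hθ, rfl⟩ := exists_arc hr ht hb hzK
      obtain ⟨V, hVo, hzV, hVsub⟩ := mem_nhdsWithin.1 (hU.inner j hj θ hθ)
      obtain ⟨y, hyV, hyA⟩ := mem_closure_iff.1 hzc V hVo hzV
      have hyj : y ∈ U j := hVsub ⟨hyV, (hA₀s hyA).1⟩
      have hij : U j = U i := by
        rcases hU.disjoint j hj i hi with h' | h'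
        · exact h'
        · exact absurd hyA.1 (Set.disjoint_left.1 h' hyj)
      have hjS : j ∈ arcsOf U m i := by
        simp only [arcsOf, Finset.mem_filter, Finset.mem_range]; exact ⟨hj, hij⟩
      exfalso
      by_cases hu : up j
      · linarith [(hup j hjS θ hθ).1 hu, hzab.2]
      · linarith [(hup j hjS θ hθ).2 hu, hzab.1]
  have hlen : μH[1] (frontier A₀ \ K) ≤ ENNReal.ofReal (24 * A / w) := by
    refine (measure_mono hfront).trans ((measure_union_le _ _).trans ?_)
    refine (add_le_add ((hgle s₁).trans hg₁) ((hgle s₂).trans hg₂)).trans (le_of_eq ?_)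
    rw [← ENNReal.ofReal_add (by positivity) (by positivity)]
    ring_nf
  have hdir : dirichlet K u A₀ ≤ ENNReal.ofReal (24 * A / w) :=
    le_trans le_self_add ((hCut A₀ hA₀o hbd).trans hlen)
  have hA₀K : A₀ \ K = A₀ := sdiff_eq_left.2 (Set.disjoint_left.2 fun z hz => (hA₀s hz).2)
  have hA₀i : IntegrableOn (gradSq u) A₀ := (integrableOn_gradSq hgm x r).mono_set hA₀s
  have hE₀ : ∫ z in A₀, gradSq u z ≤ 24 * A / w := by
    rw [dirichlet, hA₀K, ← ofReal_integral_eq_lintegral_ofReal hA₀i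
      (Eventually.of_forall fun z => gradSq_nonneg u z)] at hdir
    exact (ENNReal.ofReal_le_ofReal_iff (by positivity)).1 hdir
  -- lower bound
  set d := (s₂ - s₁) / 4
  have hd : 0 < d := div_pos (sub_pos.2 hs) (by norm_num)
  have hlow : F * (w / 12) ≤ 24 * A / w := by
    refine le_trans ?_ hE₀
    calc F * (w / 12) ≤ trapInt s₁ s₂ d s₁ s₂ * F := by
          rw [mul_comm F]
          refine mul_le_mul_of_nonneg_right ?_ hFpos.le
          have := le_trapInt hd (p := s₁) (q := s₂) (by simp only [d]; linarith)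
          simp only [d] at this ⊢
          linarith
      _ = ∫ z in U i, trap s₁ s₂ d (u z) * gradSq u z :=
          (key _ _ _ hd (by linarith [hs₁.1]) hs.le (by linarith [hs₂.2])).symm
      _ = ∫ z in A₀, trap s₁ s₂ d (u z) * gradSq u z := by
          refine setIntegral_eq_of_subset_of_ae_sdiff_eq_zero hUo.nullMeasurableSet
            inter_subset_left (Eventually.of_forall fun z hz => ?_)
          have : u z ∉ Ioo s₁ s₂ := fun h' => hz.2 ⟨hz.1, h'⟩
          rw [trap_eq_zero hd, zero_mul]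
          rcases not_and_or.1 this with h' | h'
          · exact Or.inl (not_lt.1 h')
          · exact Or.inr (not_lt.1 h')
      _ ≤ ∫ z in A₀, gradSq u z :=
          setIntegral_mono_on ((hint _ _ _).mono_set inter_subset_left) hA₀i hA₀o.measurableSet
            fun z _ => mul_le_of_le_one_left (gradSq_nonneg u z) (trap_le_one _ _ _ _)
  rw [le_div_iff₀ hw0] at hlow
  have h1 : F * w ^ 2 ≤ 288 * A := by nlinarith
  have h2 : (F * w ^ 2) ^ 2 ≤ (288 * A) ^ 2 := pow_le_pow_left₀ (by positivity) h1 2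
  have h3 : A ^ 2 = (C₀ + 1) ^ 2 * (π * r ^ 2 * (F * w)) := by
    rw [hA, mul_pow, Real.sq_sqrt (by positivity)]
  have h4 : (F * w) * (F * w ^ 3) ≤ (F * w) * (82944 * π * (C₀ + 1) ^ 2 * r ^ 2) := by
    nlinarith
  exact (le_of_mul_le_mul_left h4 (by positivity)).trans (le_of_eq rfl)

end Vale.Agent.P128.Circle
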