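import Vale.Agent.P128.Basic

/-!
# P128, seat I: pointwise facts on circles, square integrability
-/

open MeasureTheory Set Metric Filter
open scoped ENNReal Topology Real

noncomputable section

namespace Vale.Agent.P128.Circle.Shells

open Vale.Agent.P128

variable {K : Set ℂ} {u : ℂ → ℝ}

theorem clm_apply_eq (L : ℂ →L[ℝ] ℝ) (w : ℂ) : L w = w.re * L 1 + w.im * L Complex.I := by
  conv_lhs => rw [← Complex.re_add_im w]
  rw [map_add, ← Complex.real_smul, ← mul_one ((w.re : ℂ)), ← Complex.real_smul, map_smul,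
    map_smul, smul_eq_mul, smul_eq_mul]

theorem dR_eq (u : ℂ → ℝ) (x : ℂ) (r θ : ℝ) :
    dR u x r θ = Real.cos θ * fderiv ℝ u (circleMap x r θ) 1 +
      Real.sin θ * fderiv ℝ u (circleMap x r θ) Complex.I := by
  rw [dR, clm_apply_eq]
  simp [Complex.exp_ofReal_mul_I_re, Complex.exp_ofReal_mul_I_im]

theorem dT_eq (u : ℂ → ℝ) (x : ℂ) (r θ : ℝ) :
    dT u x r θ = -Real.sin θ * fderiv ℝ u (circleMap x r θ) 1 +
      Real.cos θ * fderiv ℝ u (circleMap x r θ) Complex.I := by
  rw [dT, clm_apply_eq]
  simp [Complex.exp_ofReal_mul_I_re, Complex.exp_ofReal_mul_I_im]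

theorem gradSq_circle (u : ℂ → ℝ) (x : ℂ) (r θ : ℝ) :
    gradSq u (circleMap x r θ) = dT u x r θ ^ 2 + dR u x r θ ^ 2 := by
  rw [dT_eq, dR_eq, gradSq]
  have := Real.sin_sq_add_cos_sq θ
  linear_combination (-(fderiv ℝ u (circleMap x r θ) 1 ^ 2) -
    fderiv ℝ u (circleMap x r θ) Complex.I ^ 2) * this

theorem measurable_gradSq (u : ℂ → ℝ) : Measurable (gradSq u) :=
  ((measurable_fderiv_apply_const ℝ u 1).pow_const 2).add
    ((measurable_fderiv_apply_const ℝ u Complex.I).pow_const 2)

theorem measurable_dT (u : ℂ → ℝ) (x : ℂ) (r : ℝ) : Measurable (dT u x r) := by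
  have hc : Measurable (circleMap x r) := (continuous_circleMap x r).measurable
  rw [funext (dT_eq u x r)]
  exact ((Real.continuous_sin.measurable.neg).mul
      ((measurable_fderiv_apply_const ℝ u 1).comp hc)).add
    (Real.continuous_cos.measurable.mul ((measurable_fderiv_apply_const ℝ u Complex.I).comp hc))

theorem measurable_dR (u : ℂ → ℝ) (x : ℂ) (r : ℝ) : Measurable (dR u x r) := by
  have hc : Measurable (circleMap x r) := (continuous_circleMap x r).measurable
  rw [funext (dR_eq u x r)]
  exact (Real.continuous_cos.measurable.mul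
      ((measurable_fderiv_apply_const ℝ u 1).comp hc)).add
    (Real.continuous_sin.measurable.mul ((measurable_fderiv_apply_const ℝ u Complex.I).comp hc))

theorem differentiableAt (h : IsGM K u) {z : ℂ} (hz : z ∉ K) : DifferentiableAt ℝ u z :=
  ((h.contDiffOn 1).contDiffAt (h.isOpen_compl.mem_nhds hz)).differentiableAt (by norm_num)

/-! ### Interval integrals -/

theorem intervalIntegrable_of_sq {f : ℝ → ℝ} {a b : ℝ} (hm : Measurable f)
    (hf : IntervalIntegrable (fun t => f t ^ 2) volume a b) : IntervalIntegrable f volume a b := by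
  refine (hf.add (intervalIntegrable_const (c := 1))).mono_fun
    hm.aestronglyMeasurable (Eventually.of_forall fun t => ?_)
  simp only [Real.norm_eq_abs]
  rw [abs_of_nonneg (show (0 : ℝ) ≤ f t ^ 2 + 1 by positivity)]
  nlinarith [sq_nonneg (|f t| - 1), sq_abs (f t)]

end Vale.Agent.P128.Circle.Shells
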