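import Vale.Agent.P128.Circle.Shell
import Vale.Agent.P128.Circle.Local

/-!
# P128, seat I: weighted shell integrals converge at a good radius
-/

open MeasureTheory Set Metric Filter
open scoped ENNReal Topology Real

noncomputable section

namespace Vale.Agent.P128.Circle.Shells

open Vale.Agent.P128

/-- A continuous weight on `(0, 1)` of integral one. -/
def kk (σ : ℝ) : ℝ := max 0 (6 * σ * (1 - σ))

theorem continuous_kk : Continuous kk := by unfold kk; fun_prop

theorem kk_nonneg (σ : ℝ) : 0 ≤ kk σ := le_max_left _ _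

theorem kk_le_two (σ : ℝ) : kk σ ≤ 2 := max_le (by norm_num) (by nlinarith [sq_nonneg (σ - 1 / 2)])

theorem kk_eq_zero {σ : ℝ} (hσ : σ ≤ 0 ∨ 1 ≤ σ) : kk σ = 0 :=
  max_eq_left (by rcases hσ with h | h <;> nlinarith)

theorem integral_kk : ∫ σ in (0 : ℝ)..1, kk σ = 1 := by
  have h : ∀ σ ∈ uIcc (0 : ℝ) 1, kk σ = 6 * σ - 6 * σ ^ 2 := by
    intro σ hσ
    rw [uIcc_of_le (by norm_num)] at hσ
    rw [kk, max_eq_right (by nlinarith [hσ.1, hσ.2])]; ring
  rw [intervalIntegral.integral_congr h, intervalIntegral.integral_sub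
    (by exact (continuous_const.mul continuous_id).intervalIntegrable _ _)
    (by exact (continuous_const.mul (continuous_id.pow 2)).intervalIntegrable _ _),
    intervalIntegral.integral_const_mul, intervalIntegral.integral_const_mul, integral_id,
    integral_pow]
  norm_num

/-- The cut-off which is `1` up to `s₀` and `0` beyond `s₀ + δ`. -/
def psi (s₀ δ s : ℝ) : ℝ := ∫ σ in ((s - s₀) / δ)..1, kk σ

theorem hasDerivAt_psi (s₀ δ s : ℝ) :
    HasDerivAt (psi s₀ δ) (-(kk ((s - s₀) / δ) / δ)) s := by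
  have h1 : HasDerivAt (fun v => ∫ σ in v..1, kk σ) (-kk ((s - s₀) / δ)) ((s - s₀) / δ) :=
    intervalIntegral.integral_hasDerivAt_left (continuous_kk.intervalIntegrable _ _)
      continuous_kk.stronglyMeasurable.stronglyMeasurableAtFilter continuous_kk.continuousAt
  have h2 : HasDerivAt (fun v : ℝ => (v - s₀) / δ) (1 / δ) s :=
    ((hasDerivAt_id' s).sub_const s₀).div_const δ
  refine ((h1.comp s h2).congr_deriv ?_).congr_of_eventuallyEq ?_
  · ring
  · exact Eventually.of_forall fun _ => rfl

theorem psi_eq_zero {s₀ δ s : ℝ} (hδ : 0 < δ) (hs : s₀ + δ ≤ s) : psi s₀ δ s = 0 := by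
  rw [psi, intervalIntegral.integral_symm]
  have h1 : 1 ≤ (s - s₀) / δ := by rw [le_div_iff₀ hδ]; linarith
  rw [intervalIntegral.integral_congr (g := fun _ => 0) fun σ hσ => ?_]
  · simp
  · rw [uIcc_of_le h1] at hσ
    exact kk_eq_zero (Or.inr hσ.1)

theorem psi_eq_one {s₀ δ s : ℝ} (hδ : 0 < δ) (hs : s ≤ s₀) : psi s₀ δ s = 1 := by
  have h1 : (s - s₀) / δ ≤ 0 := div_nonpos_of_nonpos_of_nonneg (by linarith) hδ.le
  rw [psi, ← intervalIntegral.integral_add_adjacent_intervals
    (continuous_kk.intervalIntegrable _ 0) (continuous_kk.intervalIntegrable 0 _), integral_kk,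
    intervalIntegral.integral_congr (g := fun _ => 0) fun σ hσ => ?_]
  · simp
  · rw [uIcc_of_le h1] at hσ
    exact kk_eq_zero (Or.inl hσ.2)

theorem psi_mem_Icc {s₀ δ : ℝ} (hδ : 0 < δ) (s : ℝ) : psi s₀ δ s ∈ Icc (0 : ℝ) 1 := by
  rcases le_or_gt s s₀ with h | h
  · rw [psi_eq_one hδ h]; simp
  rcases le_or_gt (s₀ + δ) s with h' | h'
  · rw [psi_eq_zero hδ h']; simp
  have h1 : 0 ≤ (s - s₀) / δ := div_nonneg (by linarith) hδ.le
  have h2 : (s - s₀) / δ ≤ 1 := by rw [div_le_one hδ]; linarith
  refine ⟨intervalIntegral.integral_nonneg h2 fun σ _ => kk_nonneg σ, ?_⟩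
  have hsplit := intervalIntegral.integral_add_adjacent_intervals
    (continuous_kk.intervalIntegrable (μ := volume) 0 ((s - s₀) / δ))
    (continuous_kk.intervalIntegrable ((s - s₀) / δ) 1)
  rw [integral_kk] at hsplit
  have h0 : 0 ≤ ∫ σ in (0 : ℝ)..((s - s₀) / δ), kk σ :=
    intervalIntegral.integral_nonneg h1 fun σ _ => kk_nonneg σ
  unfold psi; linarith

variable {K : Set ℂ} {u : ℂ → ℝ}

theorem closedBall_ae_eq_ball (x : ℂ) (r : ℝ) :
    (closedBall x r : Set ℂ) =ᵐ[volume] ball x r := by
  refine ae_eq_set.2 ⟨?_, ?_⟩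
  · rw [closedBall_sdiff_ball]; exact Measure.addHaar_sphere volume x r
  · rw [sdiff_eq_empty.2 ball_subset_closedBall, measure_empty]

theorem integrableOn_gradSq (h : IsGM K u) (x : ℂ) (r : ℝ) :
    IntegrableOn (gradSq u) (ball x r) := by
  have h1 : IntegrableOn (gradSq u) (ball x r \ K) := by
    refine ⟨(measurable_gradSq u).aestronglyMeasurable, ?_⟩
    rw [hasFiniteIntegral_iff_ofReal (Eventually.of_forall fun z => gradSq_nonneg u z)]
    exact h.dirichlet_lt_top x r
  exact h1.congr_set_ae (sdiff_null_ae_eq_self h.volume_eq_zero).symm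

theorem dir_eq (h : IsGM K u) (x : ℂ) (r : ℝ) : dir K u x r = ∫ z in ball x r, gradSq u z := by
  rw [dir, dirichlet, ← integral_eq_lintegral_of_nonneg_ae
    (Eventually.of_forall fun z => gradSq_nonneg u z)
    (measurable_gradSq u).aestronglyMeasurable]
  exact setIntegral_congr_set (sdiff_null_ae_eq_self h.volume_eq_zero)

theorem integral_gradSq_circle (x : ℂ) (r a : ℝ) (hr : GoodRadius K u x r) :
    ∫ θ in a..(a + 2 * π), r * gradSq u (circleMap x r θ) = tauC u x r + rhoC u x r := by
  have hper : Function.Periodic (fun θ => r * gradSq u (circleMap x r θ)) (2 * π) := fun θ => by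
    simp [periodic_circleMap x r θ]
  rw [hper.intervalIntegral_add_eq a 0, zero_add, tauC, rhoC, tauArc, rhoArc,
    ← intervalIntegral.integral_add ((hr.intT _ _).const_mul r) ((hr.intR _ _).const_mul r)]
  exact intervalIntegral.integral_congr fun θ _ => by
    show r * gradSq u (circleMap x r θ) = r * dT u x r θ ^ 2 + r * dR u x r θ ^ 2
    rw [gradSq_circle]; ring

/-- The radii of the shells. -/
def dlt (r : ℝ) (n : ℕ) : ℝ := r / (4 * ((n : ℝ) + 1))

theorem dlt_pos {r : ℝ} (hr : 0 < r) (n : ℕ) : 0 < dlt r n := by unfold dlt; positivity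

theorem dlt_le {r : ℝ} (hr : 0 < r) (n : ℕ) : dlt r n ≤ r / 4 := by
  unfold dlt
  gcongr
  have : (0 : ℝ) ≤ n := Nat.cast_nonneg n
  linarith

theorem tendsto_dlt (r : ℝ) : Tendsto (dlt r) atTop (𝓝 0) := by
  have h := (tendsto_one_div_add_atTop_nhds_zero_nat (𝕜 := ℝ)).const_mul (r / 4)
  rw [mul_zero] at h
  exact h.congr fun n => by rw [dlt, div_mul_eq_mul_div, mul_one_div, div_div]; ring

theorem tendsto_shell_average (x : ℂ) (r : ℝ) (hr : GoodRadius K u x r) :
    Tendsto (fun n => (dir K u x (r - dlt r n) - dir K u x (r - 2 * dlt r n)) / dlt r n) atTop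
      (𝓝 (tauC u x r + rhoC u x r)) := by
  have hs := hasDerivAt_iff_tendsto_slope.1 hr.deriv
  have hd := tendsto_dlt r
  have hlim : ∀ k : ℝ, 0 < k →
      Tendsto (fun n => r - k * dlt r n) atTop (𝓝[≠] r) := by
    intro k hk
    refine tendsto_nhdsWithin_iff.2 ⟨?_, Eventually.of_forall fun n => ?_⟩
    · have := (tendsto_const_nhds (x := r)).sub (hd.const_mul k)
      simpa using this
    · simp only [mem_compl_iff, mem_singleton_iff]
      have := mul_pos hk (dlt_pos hr.pos n)
      intro he; linarith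
  have h1 := hs.comp (hlim 1 one_pos)
  have h2 := hs.comp (hlim 2 two_pos)
  have h3 := (h2.const_mul 2).sub h1
  rw [show (2 * (tauC u x r + rhoC u x r) - (tauC u x r + rhoC u x r)) =
    tauC u x r + rhoC u x r by ring] at h3
  refine h3.congr fun n => ?_
  have := (dlt_pos hr.pos n).ne'
  simp only [Function.comp_apply, slope_def_field, one_mul]
  rw [show r - 2 * dlt r n - r = -(2 * dlt r n) by ring, show r - dlt r n - r = -dlt r n by ring]
  field_simp
  ring

/-- Weighted averages over thin shells inside the circle tend to the circle integral. -/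
theorem shell_tendsto (h : IsGM K u) {x : ℂ} {r : ℝ} (hr : GoodRadius K u x r) {t : ℕ → ℝ}
    {m : ℕ} (ht : IsPartition K x r t m) (F : ℂ → ℝ) (hFm : Measurable F) (C : ℝ) (hC : 0 ≤ C)
    (hF : ∀ z, |F z| ≤ C * (1 + gradSq u z)) (Fr : ℝ → ℝ)
    (hlim : ∀ θ ∈ Ioo (t 0) (t 0 + 2 * π), circleMap x r θ ∉ K →
      Tendsto F (𝓝[ball x r] circleMap x r θ) (𝓝 (Fr θ))) :
    Tendsto (fun n => ∫ z,
        kk ((‖z - x‖ - (r - 2 * dlt r n)) / dlt r n) / dlt r n * F z) atTop
      (𝓝 (r * ∫ θ in t 0..t 0 + 2 * π, Fr θ)) := by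
  classical
  set S : Set (ℝ × ℝ) := Ioo 0 1 ×ˢ Ioo (t 0) (t 0 + 2 * π) with hS
  have hSm : MeasurableSet S := measurableSet_Ioo.prod measurableSet_Ioo
  set μ : Measure (ℝ × ℝ) := volume.restrict S with hμ
  have hμp : μ = (volume.restrict (Ioo (0 : ℝ) 1)).prod
      (volume.restrict (Ioo (t 0) (t 0 + 2 * π))) := by
    rw [hμ, hS, Measure.prod_restrict]; rfl
  have : IsFiniteMeasure μ := by
    rw [hμp]
    have : IsFiniteMeasure (volume.restrict (Ioo (0 : ℝ) 1)) :=
      isFiniteMeasure_restrict.2 measure_Ioo_lt_top.ne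
    have : IsFiniteMeasure (volume.restrict (Ioo (t 0) (t 0 + 2 * π))) :=
      isFiniteMeasure_restrict.2 measure_Ioo_lt_top.ne
    infer_instance
  set sn : ℕ → ℝ × ℝ → ℝ := fun n p => r - 2 * dlt r n + dlt r n * p.1 with hsn
  have hsn_mem : ∀ n, ∀ p ∈ S, 0 < sn n p ∧ sn n p < r := by
    intro n p hp
    have h1 := dlt_pos hr.pos n
    have h2 := dlt_le hr.pos n
    have := hp.1.1; have := hp.1.2
    simp only [hsn]
    constructor <;> nlinarith
  set P : ℕ → ℝ × ℝ → ℂ := fun n p => circleMap x (sn n p) p.2 with hP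
  set g : ℕ → ℝ × ℝ → ℝ := fun n p => sn n p * gradSq u (P n p) with hg
  set gl : ℝ × ℝ → ℝ := fun p => r * gradSq u (circleMap x r p.2) with hg'
  set f : ℕ → ℝ × ℝ → ℝ := fun n p => kk p.1 * (sn n p * F (P n p)) with hf
  set fl : ℝ × ℝ → ℝ := fun p => kk p.1 * (r * Fr p.2) with hf'
  -- almost every point has a noncrossing angle
  have hgood : ∀ᵐ p ∂μ, p ∈ S ∧ circleMap x r p.2 ∉ K := by
    have hfin : {θ : ℝ | θ ∈ Ioo (t 0) (t 0 + 2 * π) ∧ circleMap x r θ ∈ K}.Finite := by
      refine (((Finset.range (m + 1)).image t).finite_toSet).subset ?_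
      rintro θ ⟨hθ, hK⟩
      rw [← ht.2.1] at hθ
      by_contra hcon
      simp only [Finset.coe_image, Set.mem_image, Finset.mem_coe, Finset.mem_range, not_exists,
        not_and] at hcon
      have hex : ∃ i, θ < t i := ⟨m, hθ.2⟩
      set j := Nat.find hex with hj
      have hj0 : j ≠ 0 := by
        intro h0
        have := Nat.find_spec hex
        rw [← hj, h0] at this
        linarith [hθ.1]
      obtain ⟨i, hi⟩ := Nat.exists_eq_succ_of_ne_zero hj0
      have hjm : j ≤ m := Nat.find_le hθ.2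
      have hile : t i ≤ θ := not_lt.1 (Nat.find_min hex (by omega))
      have hlt : θ < t (i + 1) := by
        have := Nat.find_spec hex
        rw [← hj, hi] at this
        exact this
      have hne : t i ≠ θ := hcon i (by omega)
      exact (ht.2.2 i (by omega)).1.2.2 θ ⟨lt_of_le_of_ne hile hne, hlt⟩ hK
    have h0 : (volume : Measure (ℝ × ℝ))
        (univ ×ˢ {θ : ℝ | θ ∈ Ioo (t 0) (t 0 + 2 * π) ∧ circleMap x r θ ∈ K}) = 0 := by
      rw [Measure.volume_eq_prod, Measure.prod_prod, hfin.measure_zero, mul_zero]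
    filter_upwards [ae_restrict_mem hSm,
      ae_restrict_of_ae (measure_eq_zero_iff_ae_notMem.1 h0)] with p hp hp'
    exact ⟨hp, fun hk => hp' ⟨mem_univ _, hp.2, hk⟩⟩
  have hsn_lim : ∀ p, Tendsto (fun n => sn n p) atTop (𝓝 r) := by
    intro p
    have := ((tendsto_const_nhds (x := r)).sub ((tendsto_dlt r).const_mul 2)).add
      ((tendsto_dlt r).mul_const p.1)
    simpa [hsn] using this
  have hP_lim : ∀ p, Tendsto (fun n => P n p) atTop (𝓝 (circleMap x r p.2)) := by
    intro p
    have hc : Continuous (fun s : ℝ => circleMap x s p.2) := by unfold circleMap; fun_prop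
    exact (hc.tendsto r).comp (hsn_lim p)
  have hg_lim : ∀ᵐ p ∂μ, Tendsto (fun n => g n p) atTop (𝓝 (gl p)) := by
    filter_upwards [hgood] with p hp
    have hcont : ContinuousAt (gradSq u) (circleMap x r p.2) := by
      have hc : ContinuousAt (fderiv ℝ u) (circleMap x r p.2) :=
        ((h.contDiffOn 1).continuousOn_fderiv_of_isOpen h.isOpen_compl le_rfl).continuousAt
          (h.isOpen_compl.mem_nhds hp.2)
      unfold gradSq
      fun_prop
    exact (hsn_lim p).mul (hcont.tendsto.comp (hP_lim p))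
  have hf_lim : ∀ᵐ p ∂μ, Tendsto (fun n => f n p) atTop (𝓝 (fl p)) := by
    filter_upwards [hgood] with p hp
    refine tendsto_const_nhds.mul ((hsn_lim p).mul ((hlim p.2 hp.1.2 hp.2).comp ?_))
    refine tendsto_nhdsWithin_iff.2 ⟨hP_lim p, Eventually.of_forall fun n => ?_⟩
    have := hsn_mem n p hp.1
    simp only [hP, mem_ball, dist_eq_norm, circleMap_sub_center, norm_circleMap_zero,
      abs_of_pos this.1]
    exact this.2
  -- integrability and integrals
  have hgI : ∀ n, Integrable (g n) μ ∧ ∫ p, g n p ∂μ =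
      (dir K u x (r - dlt r n) - dir K u x (r - 2 * dlt r n)) / dlt r n := by
    intro n
    have hδ := dlt_pos hr.pos n
    have hδ4 := dlt_le hr.pos n
    obtain ⟨h1, h2⟩ := shell_polar x (t 0) (r - 2 * dlt r n) (dlt r n) (by linarith [hr.pos]) hδ
      (gradSq u) (measurable_gradSq u) (integrableOn_gradSq h x _)
    refine ⟨h1, ?_⟩
    have hle : r - 2 * dlt r n ≤ r - 2 * dlt r n + dlt r n := by linarith
    rw [eq_div_iff hδ.ne', mul_comm, h2,
      setIntegral_congr_set ((EventuallyEq.refl _ _).diff (closedBall_ae_eq_ball x _)),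
      setIntegral_sdiff measurableSet_ball (integrableOn_gradSq h x _) (ball_subset_ball hle),
      dir_eq h, dir_eq h]
    ring_nf
  have hFI : ∀ n, Integrable (f n) μ ∧ ∫ p, f n p ∂μ =
      ∫ z, kk ((‖z - x‖ - (r - 2 * dlt r n)) / dlt r n) / dlt r n * F z := by
    intro n
    have hδ := dlt_pos hr.pos n
    have hδ4 := dlt_le hr.pos n
    set w : ℂ → ℝ := fun z =>
      kk ((‖z - x‖ - (r - 2 * dlt r n)) / dlt r n) / dlt r n * F z with hw
    have hwm : Measurable w :=
      ((continuous_kk.measurable.comp (by fun_prop)).div_const _).mul hFm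
    have hwi : IntegrableOn w (ball x (r - 2 * dlt r n + dlt r n)) := by
      refine Integrable.mono' (g := fun z => 2 / dlt r n * (C * (1 + gradSq u z))) ?_
        hwm.aestronglyMeasurable (Eventually.of_forall fun z => ?_)
      · have h1 : IntegrableOn (fun _ : ℂ => (1 : ℝ)) (ball x (r - 2 * dlt r n + dlt r n)) :=
          integrableOn_const (measure_ball_lt_top.ne)
        exact ((h1.add (integrableOn_gradSq h x _)).const_mul C).const_mul _
      · rw [Real.norm_eq_abs, hw, abs_mul, abs_div, abs_of_pos hδ, abs_of_nonneg (kk_nonneg _)]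
        gcongr
        · exact kk_le_two _
        · exact hF z
    obtain ⟨h1, h2⟩ := shell_polar x (t 0) (r - 2 * dlt r n) (dlt r n) (by linarith [hr.pos]) hδ
      w hwm hwi
    have hval : ∀ p ∈ S,
        dlt r n * ((r - 2 * dlt r n + dlt r n * p.1) *
          w (circleMap x (r - 2 * dlt r n + dlt r n * p.1) p.2)) = f n p := by
      intro p hp
      have hpos := (hsn_mem n p hp).1
      simp only [hsn] at hpos
      simp only [hw, hf, hsn, hP, circleMap_sub_center, norm_circleMap_zero, abs_of_pos hpos]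
      rw [show (r - 2 * dlt r n + dlt r n * p.1 - (r - 2 * dlt r n)) / dlt r n = p.1 by
        field_simp; ring]
      field_simp
    refine ⟨(h1.const_mul (dlt r n)).congr ?_, ?_⟩
    · filter_upwards [ae_restrict_mem hSm] with p hp
      exact hval p hp
    · rw [hμ, ← setIntegral_congr_fun hSm hval, integral_const_mul, h2,
        ← integral_indicator (measurableSet_ball.diff measurableSet_closedBall)]
      refine integral_congr_ae (Eventually.of_forall fun z => ?_)
      by_cases hz : z ∈ ball x (r - 2 * dlt r n + dlt r n) \ closedBall x (r - 2 * dlt r n)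
      · exact indicator_of_mem hz w
      · rw [indicator_of_notMem hz]
        simp only [Set.mem_sdiff, mem_ball, mem_closedBall, dist_eq_norm, not_and, not_not] at hz
        show (0 : ℝ) = w z
        rw [hw]
        simp only
        rw [kk_eq_zero, zero_div, zero_mul]
        by_cases h' : ‖z - x‖ < r - 2 * dlt r n + dlt r n
        · exact Or.inl (div_nonpos_of_nonpos_of_nonneg (by linarith [hz h']) hδ.le)
        · exact Or.inr (by rw [le_div_iff₀ hδ]; linarith [not_lt.1 h'])
  -- the limit density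
  have hgθ : IntervalIntegrable (fun θ => r * gradSq u (circleMap x r θ)) volume (t 0)
      (t 0 + 2 * π) := by
    refine (((hr.intT _ _).add (hr.intR _ _)).const_mul r).congr fun θ _ => ?_
    simp only [gradSq_circle]
  have hle : t 0 ≤ t 0 + 2 * π := by linarith [Real.pi_pos]
  have hglI : Integrable gl μ := by
    have : Integrable (fun θ => r * gradSq u (circleMap x r θ))
        (volume.restrict (Ioo (t 0) (t 0 + 2 * π))) :=
      ((intervalIntegrable_iff_integrableOn_Ioc_of_le hle).1 hgθ).mono_set Ioo_subset_Ioc_self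
    rw [hμp]
    exact this.comp_snd _
  have hglint : ∫ p, gl p ∂μ = tauC u x r + rhoC u x r := by
    rw [hμp, hg', integral_fun_snd (fun θ => r * gradSq u (circleMap x r θ))]
    simp only [measureReal_restrict_apply_univ, Real.volume_real_Ioo, sub_zero, max_eq_left,
      zero_le_one, one_smul]
    rw [← integral_Ioc_eq_integral_Ioo, ← intervalIntegral.integral_of_le hle]
    exact integral_gradSq_circle x r (t 0) hr
  -- Scheffé
  set hn : ℕ → ℝ × ℝ → ℝ := fun n p => min (g n p) (gl p) with hhn
  have hn_nonneg : ∀ n, ∀ p ∈ S, 0 ≤ hn n p := fun n p hp =>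
    le_min (mul_nonneg (hsn_mem n p hp).1.le (gradSq_nonneg u _))
      (mul_nonneg hr.pos.le (gradSq_nonneg u _))
  have hnI : ∀ n, Integrable (hn n) μ := fun n => (hgI n).1.inf hglI
  have hn_lim : Tendsto (fun n => ∫ p, hn n p ∂μ) atTop (𝓝 (∫ p, gl p ∂μ)) := by
    refine tendsto_integral_of_dominated_convergence gl (fun n => (hnI n).aestronglyMeasurable)
      hglI (fun n => ?_) ?_
    · filter_upwards [ae_restrict_mem hSm] with p hp
      rw [Real.norm_eq_abs, abs_of_nonneg (hn_nonneg n p hp)]
      exact min_le_right _ _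
    · filter_upwards [hg_lim] with p hp
      have := hp.min (tendsto_const_nhds (x := gl p))
      simpa [hhn] using this
  have hexc : Tendsto (fun n => ∫ p, g n p - hn n p ∂μ) atTop (𝓝 0) := by
    have h1 : Tendsto (fun n => ∫ p, g n p ∂μ) atTop (𝓝 (∫ p, gl p ∂μ)) := by
      rw [hglint]
      exact (tendsto_shell_average x r hr).congr fun n => (hgI n).2.symm
    have h2 := h1.sub hn_lim
    rw [sub_self] at h2
    exact h2.congr fun n => (integral_sub (hgI n).1 (hnI n)).symm
  set C' := 2 * C * (1 + r) with hC'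
  have hC'0 : 0 ≤ C' := by rw [hC']; have := hr.pos; positivity
  have hfb : ∀ n, ∀ p ∈ S, |f n p| ≤ C' * (1 + g n p) := by
    intro n p hp
    obtain ⟨h1, h2⟩ := hsn_mem n p hp
    have hG := gradSq_nonneg u (P n p)
    simp only [hf, abs_mul, abs_of_nonneg (kk_nonneg _), abs_of_pos h1, hg, hC']
    have h3 : sn n p * |F (P n p)| ≤ sn n p * (C * (1 + gradSq u (P n p))) :=
      mul_le_mul_of_nonneg_left (hF _) h1.le
    have h4 : kk p.1 * (sn n p * |F (P n p)|) ≤ 2 * (sn n p * (C * (1 + gradSq u (P n p)))) :=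
      mul_le_mul (kk_le_two _) h3 (by positivity) (by norm_num)
    have h5 : 0 ≤ C * (sn n p * gradSq u (P n p)) := by positivity
    have h6 : C * sn n p ≤ C * r := mul_le_mul_of_nonneg_left h2.le hC
    nlinarith [mul_nonneg hr.pos.le h5]
  set kn : ℕ → ℝ × ℝ → ℝ := fun n p =>
    max (-(C' * (1 + hn n p))) (min (C' * (1 + hn n p)) (f n p)) with hkn
  have hclip : ∀ n, ∀ p ∈ S,
      |f n p - kn n p| ≤ C' * (g n p - hn n p) ∧ |kn n p| ≤ C' * (1 + gl p) := by
    intro n p hp
    have hB : 0 ≤ C' * (1 + hn n p) := mul_nonneg hC'0 (by linarith [hn_nonneg n p hp])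
    have hb := abs_le.1 (hfb n p hp)
    have hd : 0 ≤ C' * (g n p - hn n p) :=
      mul_nonneg hC'0 (by simp only [hhn]; linarith [min_le_left (g n p) (gl p)])
    refine ⟨?_, ?_⟩
    · simp only [hkn]
      rw [abs_le]
      rcases le_total (f n p) (C' * (1 + hn n p)) with h1 | h1
      · rw [min_eq_right h1]
        rcases le_total (-(C' * (1 + hn n p))) (f n p) with h2 | h2
        · rw [max_eq_right h2]; constructor <;> linarith
        · rw [max_eq_left h2]; constructor <;> linarith
      · rw [min_eq_left h1, max_eq_right (by linarith)]; constructor <;> linarith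
    · refine le_trans (b := C' * (1 + hn n p)) ?_ ?_
      · simp only [hkn]
        rw [abs_le]
        exact ⟨le_max_left _ _, max_le (by linarith) (min_le_left _ _)⟩
      · gcongr
        exact min_le_right _ _
  have hknI : ∀ n, Integrable (kn n) μ := fun n =>
    (((integrable_const 1).add (hnI n)).const_mul C').neg.sup
      ((((integrable_const 1).add (hnI n)).const_mul C').inf (hFI n).1)
  have hdiff_pt : ∀ᵐ p ∂μ, Tendsto (fun n => f n p - kn n p) atTop (𝓝 0) := by
    filter_upwards [hg_lim, ae_restrict_mem hSm] with p hp hpS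
    refine squeeze_zero_norm (fun n => (hclip n p hpS).1) ?_
    have := ((hp.sub (hp.min (tendsto_const_nhds (x := gl p))))).const_mul C'
    simpa using this
  have hkn_lim : Tendsto (fun n => ∫ p, kn n p ∂μ) atTop (𝓝 (∫ p, fl p ∂μ)) := by
    refine tendsto_integral_of_dominated_convergence (fun p => C' * (1 + gl p))
      (fun n => (hknI n).aestronglyMeasurable) (((integrable_const 1).add hglI).const_mul C')
      (fun n => ?_) ?_
    · filter_upwards [ae_restrict_mem hSm] with p hp using (hclip n p hp).2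
    · filter_upwards [hf_lim, hdiff_pt] with p hp hp'
      simpa using hp.sub hp'
  have hdiff : Tendsto (fun n => ∫ p, f n p ∂μ - ∫ p, kn n p ∂μ) atTop (𝓝 0) := by
    refine squeeze_zero_norm (fun n => ?_) (by simpa using hexc.const_mul C')
    rw [← integral_sub (hFI n).1 (hknI n)]
    refine le_trans (norm_integral_le_integral_norm _) ?_
    rw [← integral_const_mul]
    refine integral_mono_ae ((hFI n).1.sub (hknI n)).norm
      (((hgI n).1.sub (hnI n)).const_mul C') ?_
    filter_upwards [ae_restrict_mem hSm] with p hp using (hclip n p hp).1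
  have hres := hdiff.add hkn_lim
  rw [zero_add] at hres
  have hval : ∫ p, fl p ∂μ = r * ∫ θ in t 0..t 0 + 2 * π, Fr θ := by
    rw [hμp, hf', integral_prod_mul kk (fun θ => r * Fr θ)]
    rw [← integral_Ioc_eq_integral_Ioo, ← intervalIntegral.integral_of_le zero_le_one, integral_kk,
      one_mul, integral_const_mul, ← integral_Ioc_eq_integral_Ioo,
      ← intervalIntegral.integral_of_le hle]
  rw [hval] at hres
  exact hres.congr fun n => by rw [sub_add_cancel]; exact (hFI n).2

end Vale.Agent.P128.Circle.Shells
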