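import Vale.Agent.P128.Circle.Energy

/-!
# P128: the exact identity on a circle with one crossing
-/

open MeasureTheory Set Metric Filter
open scoped ENNReal Topology Real

noncomputable section

namespace Vale.Agent.P128.Circle

/-- The identity for every pair with the component decomposition. -/
theorem oneArc_core {K : Set ℂ} {u V : ℂ → ℝ} (hgm : IsGM K u) (hComp : CompFor K u)
    (hV : IsStream K u V) {x : ℂ} {r : ℝ} (hg : GoodRadius K u x r) {t : ℕ → ℝ}
    (ht : IsPartition K x r t 1) :
    dir K u x r = -∫ θ in (t 0)..(t 0 + 2 * π),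
      r * dT u x r θ * (V (circleMap x r θ) - V (circleMap x r (t 0))) := by
  obtain ⟨U, hU, hI, hCv⟩ := hComp x r hg t 1 ht
  have hf := (ht.2.2 0 one_pos).1
  set a := t 0 with ha
  set b := t (0 + 1) with hb
  have hba : b = a + 2 * π := ht.2.1
  rw [dir_eq_sum hgm hg ht hU hI hCv, Finset.sum_range_one, integral_comp_eq hgm hg hf (fun s => s),
    ← hba]
  have hVc : Continuous fun θ => V (circleMap x r θ) - V (circleMap x r a) :=
    ((hV.cont.comp (continuous_circleMap x r))).sub continuous_const
  rw [intervalIntegral.integral_mul_deriv_eq_deriv_mul_of_hasDerivAt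
    (u := arcExt u x r a b) (v := fun θ => V (circleMap x r θ) - V (circleMap x r a))
    (u' := fun θ => r * dT u x r θ) (v' := fun θ => r * dR u x r θ)
    (continuous_arcExt hg a b).continuousOn hVc.continuousOn
    (fun θ hθ => by
      rw [min_eq_left hf.1.le, max_eq_right hf.1.le] at hθ
      exact hasDerivAt_arcExt hgm hg hf hθ)
    (fun θ hθ => by
      rw [min_eq_left hf.1.le, max_eq_right hf.1.le] at hθ
      exact (hasDerivAt_V_circle hV (hf.2.2 θ hθ)).sub_const _)
    (intervalIntegrable_dT hg a b) (intervalIntegrable_dR hg a b)]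
  have he : V (circleMap x r b) = V (circleMap x r a) := by
    rw [hba, periodic_circleMap x r a]
  simp [he]

theorem oneArc_of_comps (hComp : CompIdentitySpec) : OneArcSpec :=
  fun K u _ h hV _ _ hg _ ht => oneArc_core h (hComp K u h) hV hg ht

/-- The exact identity, general case. -/
theorem genOneArc (hComp : GenCompIdentitySpec) :
    ∀ K u V, IsGM K u → IsStream K u V → ∀ (x : ℂ) (r : ℝ), GoodRadius K u x r →
      ∀ t, IsPartition K x r t 1 →
        dir K u x r = -∫ θ in (t 0)..(t 0 + 2 * π),
          r * dT u x r θ * (V (circleMap x r θ) - V (circleMap x r (t 0))) :=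
  fun K u _ h hV _ _ hg _ ht => oneArc_core h (hComp K u h) hV hg ht

end Vale.Agent.P128.Circle
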