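import Vale.Agent.P128.Basic

/-!
# P128, seat I: integrals over thin shells tend to circle integrals
-/

open MeasureTheory Set Metric Filter
open scoped ENNReal Topology Real Pointwise

noncomputable section

namespace Vale.Agent.P128.Circle.Shells

open Vale.Agent.P128

/-- Polar coordinates on the shell `s₀ < |z - x| < s₀ + δ`, angles in `(t₀, t₀ + 2π)`. -/
theorem shell_polar (x : ℂ) (t₀ s₀ δ : ℝ) (hs : 0 ≤ s₀) (hδ : 0 < δ) (f : ℂ → ℝ)
    (hfm : Measurable f) (hf : IntegrableOn f (ball x (s₀ + δ))) :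
    IntegrableOn (fun p : ℝ × ℝ => (s₀ + δ * p.1) * f (circleMap x (s₀ + δ * p.1) p.2))
        (Ioo 0 1 ×ˢ Ioo t₀ (t₀ + 2 * π)) ∧
      δ * (∫ p in Ioo (0 : ℝ) 1 ×ˢ Ioo t₀ (t₀ + 2 * π),
          (s₀ + δ * p.1) * f (circleMap x (s₀ + δ * p.1) p.2)) =
        ∫ z in ball x (s₀ + δ) \ closedBall x s₀, f z := by
  classical
  set A : Set ℂ := ball x (s₀ + δ) \ closedBall x s₀ with hA
  have hAm : MeasurableSet A := measurableSet_ball.diff measurableSet_closedBall
  set F : ℂ → ℝ := A.indicator f with hF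
  have hFm : Measurable F := hfm.indicator hAm
  have hFi : Integrable F := (integrable_indicator_iff hAm).2 (hf.mono_set sdiff_subset)
  -- rotate and translate
  set rot : ℂ ≃ₗᵢ[ℝ] ℂ := rotation (Circle.exp (t₀ + π)) with hrot
  have hrmp : MeasurePreserving rot := rot.measurePreserving
  set G : ℂ → ℝ := fun w => F (rot w + x) with hG
  have hGm : Measurable G := hFm.comp ((rot.continuous.measurable).add_const x)
  have hF' : Integrable (fun w => F (w + x)) := hFi.comp_add_right x
  have hGi : Integrable G :=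
    (hrmp.integrable_comp_emb rot.toHomeomorph.measurableEmbedding).2 hF'
  have hGint : ∫ w, G w = ∫ z in A, f z := by
    rw [hG, hrmp.integral_comp rot.toHomeomorph.measurableEmbedding (fun w => F (w + x)),
      integral_add_right_eq_self F x, hF, integral_indicator hAm]
  -- the function in polar coordinates
  set H : ℝ × ℝ → ℝ := fun q => q.1 * G (Complex.polarCoord.symm q) with hH
  have hsymm : Continuous (fun q : ℝ × ℝ => Complex.polarCoord.symm q) := by
    simp only [Complex.polarCoord_symm_apply]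
    fun_prop
  have hHm : Measurable H := measurable_fst.mul (hGm.comp hsymm.measurable)
  have hT : MeasurableSet polarCoord.target := polarCoord.open_target.measurableSet
  have hHi : IntegrableOn H polarCoord.target := by
    refine ⟨hHm.aestronglyMeasurable, ?_⟩
    have hfin := hGi.hasFiniteIntegral
    rw [hasFiniteIntegral_iff_enorm,
      ← Complex.lintegral_comp_polarCoord_symm (fun w => ‖G w‖ₑ)] at hfin
    rw [hasFiniteIntegral_iff_enorm]
    refine lt_of_le_of_lt (le_of_eq (setLIntegral_congr_fun hT fun q hq => ?_)) hfin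
    simp only [polarCoord_target, mem_prod, mem_Ioi] at hq
    show ‖H q‖ₑ = _
    rw [hH]
    simp only [enorm_mul, smul_eq_mul]
    rw [Real.enorm_eq_ofReal hq.1.le]
  have hHint : ∫ q in polarCoord.target, H q = ∫ z in A, f z := by
    rw [← hGint, ← Complex.integral_comp_polarCoord_symm G]
    rfl
  -- restrict to the shell
  set T : Set (ℝ × ℝ) := Ioo s₀ (s₀ + δ) ×ˢ Ioo (-π) π with hTdef
  have hTm : MeasurableSet T := measurableSet_Ioo.prod measurableSet_Ioo
  have hTsub : T ⊆ polarCoord.target := by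
    rw [polarCoord_target]
    exact prod_mono (fun a ha => lt_of_le_of_lt hs ha.1) subset_rfl
  have hHT : ∫ q in polarCoord.target, H q = ∫ q in T, H q := by
    refine setIntegral_eq_of_subset_of_forall_sdiff_eq_zero hT hTsub fun q hq => ?_
    have hq1 : 0 < q.1 := by
      have := hq.1
      rw [polarCoord_target] at this
      exact this.1
    have hnot : rot (Complex.polarCoord.symm q) + x ∉ A := by
      intro hmem
      have hd : dist (rot (Complex.polarCoord.symm q) + x) x = q.1 := by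
        rw [dist_eq_norm, add_sub_cancel_right, LinearIsometryEquiv.norm_map,
          Complex.norm_polarCoord_symm, abs_of_pos hq1]
      simp only [hA, Set.mem_sdiff, mem_ball, mem_closedBall, hd, not_le] at hmem
      have h2 := hq.1
      rw [polarCoord_target] at h2
      exact hq.2 ⟨⟨hmem.2, hmem.1⟩, h2.2⟩
    show q.1 * A.indicator f (rot (Complex.polarCoord.symm q) + x) = 0
    rw [indicator_of_notMem hnot, mul_zero]
  -- affine change of variables
  set Af : ℝ × ℝ → ℝ × ℝ := fun p => (s₀ + δ * p.1, p.2 - (t₀ + π)) with hAf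
  set L : ℝ × ℝ →L[ℝ] ℝ × ℝ :=
    ((δ • ContinuousLinearMap.id ℝ ℝ).prodMap (ContinuousLinearMap.id ℝ ℝ)) with hL
  have hdet : L.det = δ := by
    rw [hL, ContinuousLinearMap.det]
    simp [LinearMap.det_prodMap]
  have hder : ∀ p ∈ Ioo (0 : ℝ) 1 ×ˢ Ioo t₀ (t₀ + 2 * π),
      HasFDerivWithinAt Af L (Ioo (0 : ℝ) 1 ×ˢ Ioo t₀ (t₀ + 2 * π)) p := by
    intro p _
    have h1 : HasFDerivAt (fun p : ℝ × ℝ => s₀ + δ * p.1)
        (δ • ContinuousLinearMap.fst ℝ ℝ ℝ) p :=
      ((hasFDerivAt_fst (𝕜 := ℝ) (p := p)).const_mul δ).const_add s₀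
    have h2 : HasFDerivAt (fun p : ℝ × ℝ => p.2 - (t₀ + π))
        (ContinuousLinearMap.snd ℝ ℝ ℝ) p :=
      (hasFDerivAt_snd (𝕜 := ℝ) (p := p)).sub_const _
    have hLeq : L = (δ • ContinuousLinearMap.fst ℝ ℝ ℝ).prod (ContinuousLinearMap.snd ℝ ℝ ℝ) :=
      ContinuousLinearMap.ext fun q => Prod.ext (by simp [hL]) (by simp [hL])
    rw [hLeq]
    exact (h1.prodMk h2).hasFDerivWithinAt
  have hinj : InjOn Af (Ioo (0 : ℝ) 1 ×ˢ Ioo t₀ (t₀ + 2 * π)) := by
    intro p _ q _ hpq
    simp only [hAf, Prod.mk.injEq] at hpq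
    exact Prod.ext (by nlinarith [hpq.1]) (by linarith [hpq.2])
  have himg : Af '' (Ioo (0 : ℝ) 1 ×ˢ Ioo t₀ (t₀ + 2 * π)) = T := by
    ext q
    constructor
    · rintro ⟨p, ⟨hp1, hp2⟩, rfl⟩
      exact ⟨⟨by nlinarith [hp1.1], by nlinarith [hp1.2]⟩,
        ⟨by linarith [hp2.1], by linarith [hp2.2]⟩⟩
    · rintro ⟨hq1, hq2⟩
      refine ⟨((q.1 - s₀) / δ, q.2 + (t₀ + π)), ⟨⟨?_, ?_⟩, ⟨?_, ?_⟩⟩, ?_⟩
      · exact div_pos (by linarith [hq1.1]) hδ
      · rw [div_lt_one hδ]; linarith [hq1.2]
      · show t₀ < q.2 + (t₀ + π)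
        linarith [hq2.1]
      · show q.2 + (t₀ + π) < t₀ + 2 * π
        linarith [hq2.2]
      · simp only [hAf]
        refine Prod.ext ?_ ?_
        · field_simp; ring
        · ring
  have hval : ∀ p ∈ Ioo (0 : ℝ) 1 ×ˢ Ioo t₀ (t₀ + 2 * π),
      H (Af p) = (s₀ + δ * p.1) * f (circleMap x (s₀ + δ * p.1) p.2) := by
    intro p hp
    have hpos : 0 < s₀ + δ * p.1 := by nlinarith [hp.1.1]
    have hpt : rot (Complex.polarCoord.symm (Af p)) + x = circleMap x (s₀ + δ * p.1) p.2 := by
      simp only [hrot, rotation_apply, hAf, Complex.polarCoord_symm_apply, circleMap,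
        Circle.coe_exp]
      rw [Complex.ofReal_cos, Complex.ofReal_sin, ← Complex.exp_mul_I]
      have : Complex.exp (((p.2 : ℝ) : ℂ) * Complex.I) =
          Complex.exp (((t₀ + π : ℝ) : ℂ) * Complex.I) *
            Complex.exp (((p.2 - (t₀ + π) : ℝ) : ℂ) * Complex.I) := by
        rw [← Complex.exp_add]; push_cast; ring_nf
      rw [this]; ring
    have hmem : circleMap x (s₀ + δ * p.1) p.2 ∈ A := by
      simp only [hA, Set.mem_sdiff, mem_ball, mem_closedBall, not_le, dist_eq_norm,
        circleMap_sub_center, norm_circleMap_zero, abs_of_pos hpos]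
      exact ⟨by nlinarith [hp.1.2], by nlinarith [hp.1.1]⟩
    simp only [hH, hG, hpt, hF, indicator_of_mem hmem]
    rfl
  have hSm : MeasurableSet (Ioo (0 : ℝ) 1 ×ˢ Ioo t₀ (t₀ + 2 * π)) :=
    measurableSet_Ioo.prod measurableSet_Ioo
  constructor
  · have h1 : IntegrableOn H (Af '' (Ioo (0 : ℝ) 1 ×ˢ Ioo t₀ (t₀ + 2 * π))) := by
      rw [himg]; exact hHi.mono_set hTsub
    have h2 := ((integrableOn_image_iff_integrableOn_abs_det_fderiv_smul volume hSm hder hinj H).1
      h1).const_mul δ⁻¹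
    refine h2.congr ?_
    filter_upwards [ae_restrict_mem hSm] with p hp
    rw [hval p hp, hdet, abs_of_pos hδ, smul_eq_mul]
    field_simp
  · rw [← hHint, hHT, ← himg,
      integral_image_eq_integral_abs_det_fderiv_smul volume hSm hder hinj, hdet, abs_of_pos hδ,
      ← integral_const_mul]
    refine setIntegral_congr_fun hSm fun p hp => ?_
    simp only [hval p hp, smul_eq_mul]

end Vale.Agent.P128.Circle.Shells
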